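import Mathlib

/-!
# P361: finite Gibbs states of real symmetric matrices

Peierls' inequality, the resulting first order bounds on `log Z`, and the Falk–Bruch form
of the Bogoliubov inequality.
-/

namespace Vale.Agent.P361

open Matrix

variable {I J : Type*} [Fintype I] [DecidableEq I] [Fintype J] [DecidableEq J]

/-- The quadratic form of a matrix. -/
def qf (X : Matrix I I ℝ) (v : I → ℝ) : ℝ := v ⬝ᵥ (X *ᵥ v)

/-- The rows of `φ` form an orthonormal basis. -/
def IsONB (φ : Matrix J I ℝ) : Prop := φ * φᵀ = 1 ∧ φᵀ * φ = 1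

omit [DecidableEq I] in
lemma qf_add (X Y : Matrix I I ℝ) (v : I → ℝ) : qf (X + Y) v = qf X v + qf Y v := by
  simp [qf, add_mulVec, dotProduct_add]

omit [DecidableEq I] in
lemma qf_smul (c : ℝ) (X : Matrix I I ℝ) (v : I → ℝ) : qf (c • X) v = c * qf X v := by
  simp [qf, smul_mulVec]

omit [DecidableEq I] in
lemma qf_sub (X Y : Matrix I I ℝ) (v : I → ℝ) : qf (X - Y) v = qf X v - qf Y v := by
  simp [qf, sub_mulVec, dotProduct_sub]

omit [DecidableEq I] in
lemma qf_sum {ι : Type*} (s : Finset ι) (X : ι → Matrix I I ℝ) (v : I → ℝ) :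
    qf (∑ i ∈ s, X i) v = ∑ i ∈ s, qf (X i) v := by
  simp [qf, sum_mulVec, dotProduct_sum]

omit [DecidableEq I] in
lemma qf_transpose (X : Matrix I I ℝ) (v : I → ℝ) : qf Xᵀ v = qf X v := by
  rw [qf, qf, dotProduct_mulVec, vecMul_transpose, dotProduct_comm]

lemma qf_diagonal (d : I → ℝ) (v : I → ℝ) : qf (diagonal d) v = ∑ s, d s * v s ^ 2 := by
  simp only [qf, dotProduct, mulVec_diagonal]
  exact Finset.sum_congr rfl fun s _ => by ring

lemma qf_one (v : I → ℝ) : qf (1 : Matrix I I ℝ) v = v ⬝ᵥ v := by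
  simp [qf]

lemma parseval {φ : Matrix J I ℝ} (hφ : IsONB φ) (v w : I → ℝ) :
    v ⬝ᵥ w = ∑ j, (φ j ⬝ᵥ v) * (φ j ⬝ᵥ w) := by
  change v ⬝ᵥ w = (φ *ᵥ v) ⬝ᵥ (φ *ᵥ w)
  rw [← vecMul_transpose φ v, ← dotProduct_mulVec, mulVec_mulVec, hφ.2, one_mulVec]

lemma IsONB.norm_row {φ : Matrix J I ℝ} (hφ : IsONB φ) (j : J) : φ j ⬝ᵥ φ j = 1 := by
  have h := congrFun (congrFun hφ.1 j) j
  simpa [Matrix.mul_apply, dotProduct] using h

/-- Peierls' inequality. -/
lemma peierls {L : Type*} [Fintype L] [DecidableEq L] {K : Matrix I I ℝ} (hK : Kᵀ = K)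
    {φ : Matrix J I ℝ} (hφ : IsONB φ) {e : J → ℝ} (he : ∀ j, K *ᵥ φ j = e j • φ j)
    {ψ : Matrix L I ℝ} (hψ : IsONB ψ) (β : ℝ) :
    ∑ k, Real.exp (-β * qf K (ψ k)) ≤ ∑ j, Real.exp (-β * e j) := by
  have key : ∀ k, qf K (ψ k) = ∑ j, (φ j ⬝ᵥ ψ k) ^ 2 * e j := by
    intro k
    rw [qf, parseval hφ]
    refine Finset.sum_congr rfl fun j _ => ?_
    rw [show φ j ⬝ᵥ K *ᵥ ψ k = (K *ᵥ φ j) ⬝ᵥ ψ k by
      rw [dotProduct_mulVec, ← mulVec_transpose, hK], he, smul_dotProduct, smul_eq_mul]
    ring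
  have hw : ∀ k, ∑ j, (φ j ⬝ᵥ ψ k) ^ 2 = 1 := by
    intro k
    rw [← hψ.norm_row k, parseval hφ]
    exact Finset.sum_congr rfl fun j _ => sq _
  calc ∑ k, Real.exp (-β * qf K (ψ k))
      ≤ ∑ k, ∑ j, (φ j ⬝ᵥ ψ k) ^ 2 * Real.exp (-β * e j) := by
        refine Finset.sum_le_sum fun k _ => ?_
        have h := convexOn_exp.map_sum_le (t := Finset.univ)
          (w := fun j => (φ j ⬝ᵥ ψ k) ^ 2) (p := fun j => -β * e j)
          (fun j _ => sq_nonneg _) (hw k) (fun j _ => Set.mem_univ _)
        simp only [smul_eq_mul] at h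
        refine le_trans (le_of_eq ?_) h
        rw [key, Finset.mul_sum]
        exact congrArg Real.exp (Finset.sum_congr rfl fun j _ => by ring)
    _ = ∑ j, Real.exp (-β * e j) := by
        rw [Finset.sum_comm]
        refine Finset.sum_congr rfl fun j _ => ?_
        rw [← Finset.sum_mul]
        have h1 := parseval hψ (φ j) (φ j)
        rw [hφ.norm_row] at h1
        have h2 : ∑ k, (φ j ⬝ᵥ ψ k) ^ 2 = 1 := by
          rw [h1]
          exact Finset.sum_congr rfl fun k _ => by rw [dotProduct_comm, sq]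
        rw [h2, one_mul]

variable {K : Matrix I I ℝ}

/-- The orthonormal eigenvectors, as rows. -/
noncomputable def evec (hK : K.IsHermitian) : Matrix I I ℝ :=
  Matrix.of fun i s => hK.eigenvectorBasis i s

lemma evec_isONB (hK : K.IsHermitian) : IsONB (evec hK) := by
  have h : evec hK = ((hK.eigenvectorUnitary : Matrix I I ℝ))ᵀ := rfl
  have hs : star (hK.eigenvectorUnitary : Matrix I I ℝ) = (hK.eigenvectorUnitary : Matrix I I ℝ)ᵀ :=
    conjTranspose_eq_transpose_of_trivial _
  constructor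
  · rw [h, transpose_transpose, ← hs]
    exact Unitary.coe_star_mul_self _
  · rw [h, transpose_transpose, ← hs]
    exact Unitary.coe_mul_star_self _

lemma evec_eigen (hK : K.IsHermitian) (i : I) :
    K *ᵥ evec hK i = hK.eigenvalues i • evec hK i :=
  hK.mulVec_eigenvectorBasis i

lemma qf_evec (hK : K.IsHermitian) (i : I) : qf K (evec hK i) = hK.eigenvalues i := by
  rw [qf, evec_eigen, dotProduct_smul, (evec_isONB hK).norm_row, smul_eq_mul, mul_one]

lemma transpose_of_isHermitian (hK : K.IsHermitian) : Kᵀ = K := by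
  rw [← conjTranspose_eq_transpose_of_trivial]; exact hK

/-- The partition function `Tr exp (-β K)`. -/
noncomputable def part (β : ℝ) (hK : K.IsHermitian) : ℝ :=
  ∑ i, Real.exp (-β * hK.eigenvalues i)

/-- Thermal expectation. -/
noncomputable def avg (β : ℝ) (hK : K.IsHermitian) (X : Matrix I I ℝ) : ℝ :=
  (∑ i, Real.exp (-β * hK.eigenvalues i) * qf X (evec hK i)) / part β hK

/-- Any eigenbasis computes the partition function. -/
lemma part_eq {β : ℝ} (hK : K.IsHermitian) {φ : Matrix J I ℝ} (hφ : IsONB φ) {e : J → ℝ}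
    (he : ∀ j, K *ᵥ φ j = e j • φ j) : part β hK = ∑ j, Real.exp (-β * e j) := by
  have hs := transpose_of_isHermitian hK
  refine le_antisymm ?_ ?_
  · refine le_trans (le_of_eq ?_) (peierls hs hφ he (evec_isONB hK) β)
    simp only [part, qf_evec]
  · refine le_trans (le_of_eq ?_) (peierls hs (evec_isONB hK) (evec_eigen hK) hφ β)
    refine Finset.sum_congr rfl fun j _ => ?_
    rw [qf, he, dotProduct_smul, hφ.norm_row, smul_eq_mul, mul_one]

variable [Nonempty I]

lemma part_pos (β : ℝ) (hK : K.IsHermitian) : 0 < part β hK :=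
  Finset.sum_pos (fun i _ => Real.exp_pos _) Finset.univ_nonempty

omit [Nonempty I] in
lemma avg_add (β : ℝ) (hK : K.IsHermitian) (X Y : Matrix I I ℝ) :
    avg β hK (X + Y) = avg β hK X + avg β hK Y := by
  simp [avg, qf_add, mul_add, Finset.sum_add_distrib, add_div]

omit [Nonempty I] in
lemma avg_sub (β : ℝ) (hK : K.IsHermitian) (X Y : Matrix I I ℝ) :
    avg β hK (X - Y) = avg β hK X - avg β hK Y := by
  simp [avg, qf_sub, mul_sub, Finset.sum_sub_distrib, sub_div]

omit [Nonempty I] in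
lemma avg_smul (β : ℝ) (hK : K.IsHermitian) (c : ℝ) (X : Matrix I I ℝ) :
    avg β hK (c • X) = c * avg β hK X := by
  simp only [avg, qf_smul, Finset.mul_sum, mul_div_assoc']
  congr 1
  exact Finset.sum_congr rfl fun i _ => by ring

omit [Nonempty I] in
lemma avg_sum {ι : Type*} (β : ℝ) (hK : K.IsHermitian) (s : Finset ι) (X : ι → Matrix I I ℝ) :
    avg β hK (∑ j ∈ s, X j) = ∑ j ∈ s, avg β hK (X j) := by
  simp only [avg, qf_sum, Finset.mul_sum, ← Finset.sum_div]
  rw [Finset.sum_comm]

omit [Nonempty I] in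
lemma avg_transpose (β : ℝ) (hK : K.IsHermitian) (X : Matrix I I ℝ) :
    avg β hK Xᵀ = avg β hK X := by
  simp [avg, qf_transpose]

lemma avg_le {β : ℝ} (hK : K.IsHermitian) {X : Matrix I I ℝ} {c : ℝ}
    (h : ∀ v, qf X v ≤ c * (v ⬝ᵥ v)) : avg β hK X ≤ c := by
  rw [avg, div_le_iff₀ (part_pos β hK), part, Finset.mul_sum]
  refine Finset.sum_le_sum fun i _ => ?_
  have := h (evec hK i)
  rw [(evec_isONB hK).norm_row, mul_one] at this
  rw [mul_comm c]
  exact mul_le_mul_of_nonneg_left this (Real.exp_pos _).le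

/-- First order lower bound on the logarithm of the partition function. -/
lemma log_part_ge {K' : Matrix I I ℝ} (β : ℝ) (hK : K.IsHermitian) (hK' : K'.IsHermitian) :
    Real.log (part β hK) - β * avg β hK (K' - K) ≤ Real.log (part β hK') := by
  have hZ := part_pos β hK
  have h := convexOn_exp.map_sum_le (t := Finset.univ)
    (w := fun i => Real.exp (-β * hK.eigenvalues i) / part β hK)
    (p := fun i => -β * qf (K' - K) (evec hK i))
    (fun i _ => (div_pos (Real.exp_pos _) hZ).le)
    (by rw [← Finset.sum_div]; exact div_self hZ.ne') (fun i _ => Set.mem_univ _)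
  simp only [smul_eq_mul] at h
  have h2 : part β hK * Real.exp (-β * avg β hK (K' - K)) ≤ part β hK' := by
    refine le_trans ?_ (peierls (transpose_of_isHermitian hK') (evec_isONB hK')
      (evec_eigen hK') (evec_isONB hK) β)
    calc part β hK * Real.exp (-β * avg β hK (K' - K))
        ≤ part β hK * ∑ i, Real.exp (-β * hK.eigenvalues i) / part β hK *
            Real.exp (-β * qf (K' - K) (evec hK i)) := by
          refine mul_le_mul_of_nonneg_left (le_trans (le_of_eq ?_) h) hZ.le
          rw [avg, mul_div_assoc', Finset.mul_sum, Finset.sum_div]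
          exact congrArg Real.exp (Finset.sum_congr rfl fun i _ => by ring)
      _ = _ := by
          rw [Finset.mul_sum]
          refine Finset.sum_congr rfl fun i _ => ?_
          rw [← mul_assoc, mul_div_cancel₀ _ hZ.ne', ← Real.exp_add, qf_sub, qf_evec]
          ring_nf
  have h3 := Real.log_le_log (mul_pos hZ (Real.exp_pos _)) h2
  rw [Real.log_mul hZ.ne' (Real.exp_pos _).ne', Real.log_exp] at h3
  linarith

lemma abs_log_part_sub_le {K' : Matrix I I ℝ} {β C : ℝ} (hβ : 0 ≤ β) (hK : K.IsHermitian)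
    (hK' : K'.IsHermitian) (h : ∀ v, |qf (K' - K) v| ≤ C * (v ⬝ᵥ v)) :
    |Real.log (part β hK') - Real.log (part β hK)| ≤ β * C := by
  rw [abs_le]
  constructor
  · have h1 := log_part_ge β hK hK'
    have h2 : avg β hK (K' - K) ≤ C := avg_le hK fun v => (le_abs_self _).trans (h v)
    nlinarith
  · have h1 := log_part_ge β hK' hK
    have h2 : avg β hK' (K - K') ≤ C := avg_le hK' fun v => by
      refine le_trans ?_ (h v)
      rw [qf_sub, qf_sub, abs_sub_comm]
      exact le_abs_self _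
    nlinarith

/-- The Bose function. -/
noncomputable def bose (y : ℝ) : ℝ := 1 / (Real.exp y - 1)

/-- Its derivative. -/
noncomputable def boseD (y : ℝ) : ℝ := -(bose y * (1 + bose y))

lemma bose_pos {y : ℝ} (hy : 0 < y) : 0 < bose y :=
  div_pos one_pos (by linarith [Real.one_lt_exp_iff.2 hy])

lemma boseD_neg {y : ℝ} (hy : 0 < y) : boseD y < 0 := by
  have := bose_pos hy
  unfold boseD; nlinarith

/-- The Bose function lies above its tangents. -/
lemma falkBruch_scalar {y : ℝ} (hy : 0 < y) (t : ℝ) :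
    (Real.exp t - 1) * (bose y + boseD y * (t - y)) ≤ 1 := by
  have hg := bose_pos hy
  have hd := boseD_neg hy
  by_cases ht : t ≤ 0
  · have h1 : Real.exp t - 1 ≤ 0 := by linarith [Real.exp_le_one_iff.2 ht]
    have h2 : 0 ≤ bose y + boseD y * (t - y) := by nlinarith
    nlinarith
  push Not at ht
  have hp : 0 < Real.exp t - 1 := by linarith [Real.one_lt_exp_iff.2 ht]
  by_cases hle : bose y + boseD y * (t - y) ≤ 0
  · nlinarith
  push Not at hle
  set a := Real.exp y - 1 with ha
  have ha0 : 0 < a := by linarith [Real.one_lt_exp_iff.2 hy]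
  set s := t - y with hs
  have hval : bose y + boseD y * s = (a - (a + 1) * s) / a ^ 2 := by
    rw [boseD, bose, ← ha]; field_simp; ring
  rw [hval] at hle ⊢
  have hnum : 0 < a - (a + 1) * s := by
    by_contra hneg
    push Not at hneg
    exact absurd hle (not_lt.2 (div_nonpos_of_nonpos_of_nonneg hneg (sq_nonneg a)))
  have hs1 : s < 1 := by nlinarith
  have he : Real.exp s * (1 - s) ≤ 1 := by
    have h1 := Real.add_one_le_exp (-s)
    calc Real.exp s * (1 - s) ≤ Real.exp s * Real.exp (-s) :=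
          mul_le_mul_of_nonneg_left (by linarith) (Real.exp_pos _).le
      _ = 1 := by rw [← Real.exp_add]; simp
  have het : Real.exp t = (a + 1) * Real.exp s := by
    rw [show a + 1 = Real.exp y by ring, ← Real.exp_add]; congr 1; ring
  rw [mul_div_assoc', div_le_one (by positivity)]
  have h2 : (Real.exp t - 1) * (1 - s) ≤ a + s := by
    rw [het]; nlinarith [mul_le_mul_of_nonneg_left he (by linarith : (0 : ℝ) ≤ a + 1)]
  have h3 := mul_le_mul_of_nonneg_right h2 hnum.le
  nlinarith [sq_nonneg s]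

/-- The Falk–Bruch form of the Bogoliubov inequality. -/
lemma falkBruch (β : ℝ) (hK : K.IsHermitian) (A : Matrix I I ℝ) {y : ℝ} (hy : 0 < y) :
    avg β hK (A * Aᵀ - Aᵀ * A) * (1 + 2 * bose y) + 2 * boseD y *
        (β * avg β hK ((A * K - K * A) * Aᵀ - Aᵀ * (A * K - K * A))
          - y * avg β hK (A * Aᵀ - Aᵀ * A))
      ≤ avg β hK (A * Aᵀ + Aᵀ * A) := by
  set el : Matrix I I ℝ → I → I → ℝ := fun X i j => evec hK i ⬝ᵥ X *ᵥ evec hK j with hel
  have hmul : ∀ X Y : Matrix I I ℝ, ∀ i,
      qf (X * Y) (evec hK i) = ∑ j, el X i j * el Y j i := by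
    intro X Y i
    rw [qf, ← mulVec_mulVec, dotProduct_mulVec, parseval (evec_isONB hK)]
    refine Finset.sum_congr rfl fun j _ => ?_
    simp only [hel]
    rw [dotProduct_mulVec (evec hK i), dotProduct_comm (evec hK i ᵥ* X) (evec hK j)]
  have htr : ∀ X i j, el Xᵀ i j = el X j i := by
    intro X i j
    simp only [hel]
    rw [mulVec_transpose, dotProduct_comm, ← dotProduct_mulVec]
  have hcom : ∀ i j, el (A * K - K * A) i j
      = (hK.eigenvalues j - hK.eigenvalues i) * el A i j := by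
    intro i j
    simp only [hel, sub_mulVec, dotProduct_sub, ← mulVec_mulVec, evec_eigen, mulVec_smul,
      dotProduct_smul, smul_eq_mul]
    rw [dotProduct_mulVec (evec hK i) K, ← mulVec_transpose, transpose_of_isHermitian hK,
      evec_eigen, smul_dotProduct, smul_eq_mul]
    ring
  set w : I → ℝ := fun i => Real.exp (-β * hK.eigenvalues i) with hw
  set E : I → ℝ := hK.eigenvalues with hE
  have s1 : avg β hK (A * Aᵀ) = (∑ i, ∑ j, w i * el A i j ^ 2) / part β hK := by
    simp only [avg, hmul, htr, Finset.mul_sum, hw, hE]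
    congr 1
    exact Finset.sum_congr rfl fun i _ => Finset.sum_congr rfl fun j _ => by ring
  have s2 : avg β hK (Aᵀ * A) = (∑ i, ∑ j, w j * el A i j ^ 2) / part β hK := by
    simp only [avg, hmul, htr, Finset.mul_sum, hw, hE]
    rw [Finset.sum_comm]
    congr 1
    exact Finset.sum_congr rfl fun i _ => Finset.sum_congr rfl fun j _ => by ring
  have s3 : avg β hK ((A * K - K * A) * Aᵀ)
      = (∑ i, ∑ j, w i * (E j - E i) * el A i j ^ 2) / part β hK := by
    simp only [avg, hmul, htr, hcom, Finset.mul_sum, hw, hE]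
    congr 1
    exact Finset.sum_congr rfl fun i _ => Finset.sum_congr rfl fun j _ => by ring
  have s4 : avg β hK (Aᵀ * (A * K - K * A))
      = (∑ i, ∑ j, w j * (E j - E i) * el A i j ^ 2) / part β hK := by
    simp only [avg, hmul, htr, hcom, Finset.mul_sum, hw, hE]
    rw [Finset.sum_comm]
    congr 1
    exact Finset.sum_congr rfl fun i _ => Finset.sum_congr rfl fun j _ => by ring
  rw [avg_add, avg_sub, avg_sub, s1, s2, s3, s4]
  have hsum : ∑ i, ∑ j, ((w i - w j) * (1 + 2 * bose y) + 2 * boseD y *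
      (β * ((w i - w j) * (E j - E i)) - y * (w i - w j))) * el A i j ^ 2
      ≤ ∑ i, ∑ j, (w i + w j) * el A i j ^ 2 := by
    refine Finset.sum_le_sum fun i _ => Finset.sum_le_sum fun j _ => ?_
    refine mul_le_mul_of_nonneg_right ?_ (sq_nonneg _)
    have hwi : w i = w j * Real.exp (β * (E j - E i)) := by
      simp only [hw, hE]; rw [← Real.exp_add]; congr 1; ring
    have hs := mul_le_mul_of_nonneg_left (falkBruch_scalar hy (β * (E j - E i)))
      (show (0 : ℝ) ≤ w j from (Real.exp_pos _).le)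
    rw [hwi]
    nlinarith
  set a1 := ∑ i, ∑ j, w i * el A i j ^ 2
  set a2 := ∑ i, ∑ j, w j * el A i j ^ 2
  set a3 := ∑ i, ∑ j, w i * (E j - E i) * el A i j ^ 2
  set a4 := ∑ i, ∑ j, w j * (E j - E i) * el A i j ^ 2
  have h1 : ∑ i, ∑ j, (w i + w j) * el A i j ^ 2 = a1 + a2 := by
    simp only [a1, a2, add_mul, Finset.sum_add_distrib]
  have h2 : ∑ i, ∑ j, ((w i - w j) * (1 + 2 * bose y) + 2 * boseD y *
      (β * ((w i - w j) * (E j - E i)) - y * (w i - w j))) * el A i j ^ 2
      = (a1 - a2) * (1 + 2 * bose y) + 2 * boseD y * (β * (a3 - a4) - y * (a1 - a2)) := by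
    simp only [a1, a2, a3, a4, ← Finset.sum_sub_distrib, Finset.mul_sum, Finset.sum_mul,
      ← Finset.sum_add_distrib]
    exact Finset.sum_congr rfl fun i _ => Finset.sum_congr rfl fun j _ => by ring
  rw [h1, h2] at hsum
  have hZ := part_pos β hK
  rw [← sub_nonneg]
  calc (0 : ℝ) ≤ ((a1 + a2) - ((a1 - a2) * (1 + 2 * bose y) + 2 * boseD y *
        (β * (a3 - a4) - y * (a1 - a2)))) / part β hK := div_nonneg (sub_nonneg.2 hsum) hZ.le
    _ = _ := by ring

end Vale.Agent.P361
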