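import Vale.Agent.P361.Spin
import Vale.Agent.P361.Gibbs

/-! # P361: commutators and bond bounds -/

namespace Vale.Agent.P361

open Matrix

variable {n : ℕ} {V : Type*} [Fintype V] [DecidableEq V]

section Bracket

variable {R : Type*} [Ring R] [Algebra ℝ R]

/-- The commutator. -/
def br (X Y : R) : R := X * Y - Y * X

omit [Algebra ℝ R] in
lemma br_of_comm {X Y : R} (h : X * Y = Y * X) : br X Y = 0 := by simp [br, h]

omit [Algebra ℝ R] in
lemma br_add_left (X Y Z : R) : br (X + Y) Z = br X Z + br Y Z := by simp [br, mul_add, add_mul]; abel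

omit [Algebra ℝ R] in
lemma br_add_right (X Y Z : R) : br X (Y + Z) = br X Y + br X Z := by simp [br, mul_add, add_mul]; abel

omit [Algebra ℝ R] in
lemma br_sub_left (X Y Z : R) : br (X - Y) Z = br X Z - br Y Z := by simp [br, mul_sub, sub_mul]; abel

omit [Algebra ℝ R] in
lemma br_sub_right (X Y Z : R) : br X (Y - Z) = br X Y - br X Z := by simp [br, mul_sub, sub_mul]; abel

omit [Algebra ℝ R] in
lemma br_neg_right (X Y : R) : br X (-Y) = -br X Y := by simp [br]; abel

omit [Algebra ℝ R] in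
lemma br_neg_left (X Y : R) : br (-X) Y = -br X Y := by simp [br]; abel

lemma br_smul_left (c : ℝ) (X Y : R) : br (c • X) Y = c • br X Y := by
  simp [br, smul_sub]

lemma br_smul_right (c : ℝ) (X Y : R) : br X (c • Y) = c • br X Y := by
  simp [br, smul_sub]

omit [Algebra ℝ R] in
lemma br_sum_left {ι : Type*} (s : Finset ι) (X : ι → R) (Y : R) :
    br (∑ i ∈ s, X i) Y = ∑ i ∈ s, br (X i) Y := by
  simp [br, Finset.sum_mul, Finset.mul_sum, Finset.sum_sub_distrib]

omit [Algebra ℝ R] in
lemma br_sum_right {ι : Type*} (s : Finset ι) (X : R) (Y : ι → R) :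
    br X (∑ i ∈ s, Y i) = ∑ i ∈ s, br X (Y i) := by
  simp [br, Finset.sum_mul, Finset.mul_sum, Finset.sum_sub_distrib]

omit [Algebra ℝ R] in
lemma br_mul_left_of_comm_snd {X Y D : R} (h : Y * D = D * Y) :
    br (X * Y) D = br X D * Y := by
  simp only [br, sub_mul, mul_assoc, h]

omit [Algebra ℝ R] in
lemma br_mul_left_of_comm_fst {X Y D : R} (h : X * D = D * X) :
    br (X * Y) D = X * br Y D := by
  simp only [br, mul_sub, ← mul_assoc, h]

omit [Algebra ℝ R] in
lemma br_mul_right_of_comm_snd {X Y D : R} (h : Y * D = D * Y) :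
    br D (X * Y) = br D X * Y := by
  simp only [br, sub_mul, mul_assoc, h]

omit [Algebra ℝ R] in
lemma br_mul_right_of_comm_fst {X Y D : R} (h : X * D = D * X) :
    br D (X * Y) = X * br D Y := by
  simp only [br, mul_sub, ← mul_assoc, h]

end Bracket

lemma up_zc_self (x : V) : br (up n x) (zc n x) = -up n x := by
  rw [br, ← neg_sub, zc_up_self]

lemma br_up_zc (x z : V) : br (up n z) (zc n x) = if z = x then -up n x else 0 := by
  split_ifs with h
  · subst h; exact up_zc_self z
  · exact br_of_comm (atSite_comm h _ _)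

lemma br_up_dn (x z : V) : br (up n z) (dn n x) = if z = x then (2 : ℝ) • zc n x else 0 := by
  split_ifs with h
  · subst h; exact up_dn_self n z
  · exact br_of_comm (atSite_comm h _ _)

lemma br_zc_dn (x z : V) : br (zc n x) (dn n z) = if z = x then -dn n x else 0 := by
  split_ifs with h
  · subst h; exact zc_dn_self n z
  · exact br_of_comm (atSite_comm (Ne.symm h) _ _)

lemma dotR_swap {x y : V} (h : x ≠ y) : dotR n y x = dotR n x y := by
  rw [dotR, dotR]
  rw [show zc n y * zc n x = zc n x * zc n y from atSite_comm h.symm _ _,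
    show up n y * dn n x = dn n x * up n y from atSite_comm h.symm _ _,
    show dn n y * up n x = up n x * dn n y from atSite_comm h.symm _ _,
    add_comm (dn n x * up n y)]

lemma br_up_dotR_fst {x y : V} (h : x ≠ y) :
    br (up n x) (dotR n x y) = zc n x * up n y - up n x * zc n y := by
  have c1 : zc n y * up n x = up n x * zc n y := atSite_comm h.symm _ _
  have c2 : dn n y * up n x = up n x * dn n y := atSite_comm h.symm _ _
  have c3 : up n y * up n x = up n x * up n y := atSite_comm h.symm _ _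
  rw [dotR, br_add_right, br_smul_right, br_add_right, br_mul_right_of_comm_snd c1,
    br_mul_right_of_comm_snd c2, br_mul_right_of_comm_snd c3, br_up_zc, if_pos rfl, br_up_dn,
    if_pos rfl, br_of_comm rfl, zero_mul, zero_add, smul_mul_assoc, smul_smul]
  norm_num
  abel

lemma br_up_dotR_other {x y z : V} (hx : z ≠ x) (hy : z ≠ y) :
    br (up n z) (dotR n x y) = 0 := by
  have cx : zc n x * up n z = up n z * zc n x := atSite_comm hx.symm _ _
  have cx2 : up n x * up n z = up n z * up n x := atSite_comm hx.symm _ _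
  have cx3 : dn n x * up n z = up n z * dn n x := atSite_comm hx.symm _ _
  rw [dotR, br_add_right, br_smul_right, br_add_right, br_mul_right_of_comm_fst cx,
    br_mul_right_of_comm_fst cx2, br_mul_right_of_comm_fst cx3, br_up_zc, if_neg hy, br_up_dn,
    if_neg hy, br_of_comm (show up n z * up n y = up n y * up n z from atSite_comm hy _ _)]
  simp

/-- The linear combination `∑ a x • S⁺_x`. -/
noncomputable def wave (n : ℕ) (a : V → ℝ) : Matrix (Cfg n V) (Cfg n V) ℝ :=
  ∑ x, a x • up n x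

lemma wave_transpose (a : V → ℝ) : (wave n a)ᵀ = ∑ x, a x • dn n x := by
  simp [wave, Matrix.transpose_sum, up_transpose]

lemma br_wave_dotR (a : V → ℝ) {x y : V} (h : x ≠ y) :
    br (wave n a) (dotR n x y) = (a x - a y) • (zc n x * up n y - up n x * zc n y) := by
  rw [wave, br_sum_left, Finset.sum_eq_add x y h]
  · rw [br_smul_left, br_smul_left, br_up_dotR_fst h, ← dotR_swap h, br_up_dotR_fst h.symm,
      show zc n y * up n x = up n x * zc n y from atSite_comm h.symm _ _,
      show up n y * zc n x = zc n x * up n y from atSite_comm h.symm _ _]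
    module
  · intro z _ hz
    rw [br_smul_left, br_up_dotR_other hz.1 hz.2, smul_zero]
  · simp
  · simp

lemma br_wave_zc (a : V → ℝ) (x : V) : br (wave n a) (zc n x) = -(a x • up n x) := by
  rw [wave, br_sum_left, Finset.sum_eq_single x]
  · rw [br_smul_left, br_up_zc, if_pos rfl, smul_neg]
  · intro z _ hz
    rw [br_smul_left, br_up_zc, if_neg hz, smul_zero]
  · simp

lemma br_wave_sumZc (a : V → ℝ) : br (wave n a) (∑ x, zc n x) = -wave n a := by
  rw [br_sum_right]
  simp only [br_wave_zc, Finset.sum_neg_distrib]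
  rfl

lemma br_wave_waveT (a : V → ℝ) :
    br (wave n a) (wave n a)ᵀ = ∑ x, (2 * a x ^ 2) • zc n x := by
  rw [wave_transpose]
  simp only [wave, br_sum_left, br_sum_right, br_smul_left, br_smul_right, br_up_dn]
  simp only [smul_ite, smul_zero, Finset.sum_ite_eq', Finset.mem_univ, if_true, smul_smul]
  refine Finset.sum_congr rfl fun x _ => ?_
  congr 1
  ring

lemma br_pair_waveT (a : V → ℝ) {x y : V} (h : x ≠ y) :
    br (zc n x * up n y - up n x * zc n y) (wave n a)ᵀ =
      a y • (up n x * dn n y + (2 : ℝ) • (zc n x * zc n y))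
        - a x • ((2 : ℝ) • (zc n x * zc n y) + dn n x * up n y) := by
  rw [wave_transpose, br_sum_right, Finset.sum_eq_add x y h]
  · have c1 : up n y * dn n x = dn n x * up n y := atSite_comm h.symm _ _
    have c2 : zc n y * dn n x = dn n x * zc n y := atSite_comm h.symm _ _
    have c3 : zc n x * dn n y = dn n y * zc n x := atSite_comm h _ _
    have c4 : up n x * dn n y = dn n y * up n x := atSite_comm h _ _
    rw [br_smul_right, br_smul_right, br_sub_left, br_sub_left, br_mul_left_of_comm_snd c1,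
      br_mul_left_of_comm_snd c2, br_mul_left_of_comm_fst c3, br_mul_left_of_comm_fst c4,
      br_up_dn, br_up_dn, br_zc_dn, br_zc_dn, if_pos rfl, if_pos rfl, if_pos rfl, if_pos rfl,
      smul_mul_assoc, mul_smul_comm, neg_mul, mul_neg]
    module
  · intro z _ hz
    rw [br_smul_right, br_sub_left,
      br_mul_left_of_comm_snd (show up n y * dn n z = dn n z * up n y from
        atSite_comm hz.2.symm _ _),
      br_mul_left_of_comm_snd (show zc n y * dn n z = dn n z * zc n y from
        atSite_comm hz.2.symm _ _),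
      br_zc_dn, if_neg hz.1, br_of_comm (show up n x * dn n z = dn n z * up n x from
        atSite_comm hz.1.symm _ _)]
    simp
  · simp
  · simp

/-- The double commutator of a bond term. -/
lemma doubleComm_dotR (a : V → ℝ) {x y : V} (h : x ≠ y) :
    br (br (wave n a) (-dotR n x y)) (wave n a)ᵀ =
      (a x - a y) • (a x • ((2 : ℝ) • (zc n x * zc n y) + dn n x * up n y)
        - a y • (up n x * dn n y + (2 : ℝ) • (zc n x * zc n y))) := by
  rw [br_neg_right, br_wave_dotR a h, br_neg_left, br_smul_left, br_pair_waveT a h]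
  module

lemma zc_mul_zc (x y : V) :
    zc n x * zc n y = Matrix.diagonal fun s : Cfg n V => weight n (s x) * weight n (s y) := by
  simp [zc_eq]

lemma abs_weight_le (j : Fin (n + 1)) : |weight n j| ≤ (n : ℝ) / 2 := by
  have h1 : ((j : ℕ) : ℝ) ≤ n := by exact_mod_cast Nat.lt_succ_iff.1 j.2
  have h2 : (0 : ℝ) ≤ (j : ℕ) := Nat.cast_nonneg _
  rw [weight, abs_le]; constructor <;> linarith

lemma raise_apply_sq {i j : Fin (n + 1)} (h : (j : ℕ) = i + 1) :
    raise n i j = √((j : ℝ) * ((n : ℝ) + 1 - j)) := by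
  rw [raise, Matrix.of_apply, if_pos h]

lemma raise_apply_ne {i j : Fin (n + 1)} (h : (j : ℕ) ≠ i + 1) : raise n i j = 0 := by
  simp [raise, h]

/-- The off-diagonal part of a bond is dominated by a diagonal matrix. -/
lemma abs_qf_up_dn_le {x y : V} (h : x ≠ y) (v : Cfg n V → ℝ) :
    |qf (up n x * dn n y) v| ≤ ∑ s, ((((n : ℝ) - (s x : ℕ)) * (s y : ℕ)
      + (s x : ℕ) * ((n : ℝ) - (s y : ℕ))) / 2) * v s ^ 2 := by
  classical
  let R : Cfg n V → Cfg n V → Prop := fun s u => (∀ z, z ≠ x → z ≠ y → s z = u z) ∧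
    (u x : ℕ) = s x + 1 ∧ (s y : ℕ) = u y + 1
  let P : Cfg n V → ℝ := fun s => ((n : ℝ) - (s x : ℕ)) * (s y : ℕ)
  let Q : Cfg n V → ℝ := fun s => (s x : ℕ) * ((n : ℝ) - (s y : ℕ))
  have hb : ∀ (s : Cfg n V) (z : V), ((s z : ℕ) : ℝ) ≤ n := fun s z => by
    exact_mod_cast Nat.lt_succ_iff.1 (s z).2
  have hP : ∀ s, 0 ≤ P s := fun s => mul_nonneg (by linarith [hb s x]) (Nat.cast_nonneg _)
  have hQ : ∀ s, 0 ≤ Q s := fun s => mul_nonneg (Nat.cast_nonneg _) (by linarith [hb s y])
  have hterm : ∀ s u, |v s * ((up n x * dn n y) s u * v u)| ≤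
      (if R s u then P s * v s ^ 2 else 0) / 2 + (if R s u then Q u * v u ^ 2 else 0) / 2 := by
    intro s u
    rw [up, dn, atSite_mul_other h]
    by_cases hR : R s u
    · obtain ⟨h1, h2, h3⟩ := hR
      rw [if_pos h1, if_pos (⟨h1, h2, h3⟩ : R s u), if_pos (⟨h1, h2, h3⟩ : R s u),
        Matrix.transpose_apply, raise_apply_sq h2, raise_apply_sq h3]
      have e2 : ((u x : ℕ) : ℝ) = (s x : ℕ) + 1 := by exact_mod_cast h2
      have e3 : ((s y : ℕ) : ℝ) = (u y : ℕ) + 1 := by exact_mod_cast h3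
      rw [show ((s y : ℕ) : ℝ) * ((n : ℝ) + 1 - (s y : ℕ))
            = (s y : ℕ) * ((n : ℝ) - (u y : ℕ)) by rw [e3]; ring,
        show ((u x : ℕ) : ℝ) * ((n : ℝ) + 1 - (u x : ℕ))
            = (u x : ℕ) * ((n : ℝ) - (s x : ℕ)) by rw [e2]; ring]
      set A := √(((u x : ℕ) : ℝ) * ((n : ℝ) - (s x : ℕ)))
      set B := √(((s y : ℕ) : ℝ) * ((n : ℝ) - (u y : ℕ)))
      have hA : A * B = √(P s) * √(Q u) := by
        simp only [A, B, P, Q]
        rw [← Real.sqrt_mul, ← Real.sqrt_mul]
        · congr 1; ring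
        · exact mul_nonneg (by linarith [hb s x]) (Nat.cast_nonneg _)
        · exact mul_nonneg (Nat.cast_nonneg _) (by linarith [hb s x])
      rw [show v s * (A * B * v u) = (v s * √(P s)) * (v u * √(Q u)) by
        rw [hA]; ring]
      rw [abs_mul]
      have key := two_mul_le_add_sq |v s * √(P s)| |v u * √(Q u)|
      rw [sq_abs, sq_abs, mul_pow, mul_pow, Real.sq_sqrt (hP s), Real.sq_sqrt (hQ u)] at key
      nlinarith
    · rw [if_neg hR, if_neg hR]
      split_ifs with h1
      · rw [Matrix.transpose_apply]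
        by_cases h2 : (u x : ℕ) = s x + 1
        · have h3 : (s y : ℕ) ≠ u y + 1 := fun h3 => hR ⟨h1, h2, h3⟩
          simp [raise_apply_ne h3]
        · simp [raise_apply_ne h2]
      · simp
  have hone : ∀ s, ∑ u, (if R s u then P s * v s ^ 2 else 0) ≤ P s * v s ^ 2 := by
    intro s
    rw [← Finset.sum_filter, Finset.sum_const, nsmul_eq_mul]
    refine mul_le_of_le_one_left (mul_nonneg (hP s) (sq_nonneg _)) ?_
    rw [Nat.cast_le_one]
    refine Finset.card_le_one.2 fun u hu u' hu' => ?_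
    simp only [Finset.mem_filter, Finset.mem_univ, true_and, R] at hu hu'
    funext z
    by_cases hx : z = x
    · subst hx; exact Fin.ext (by omega)
    by_cases hy : z = y
    · subst hy; exact Fin.ext (by omega)
    rw [← hu.1 z hx hy, hu'.1 z hx hy]
  have htwo : ∀ u, ∑ s, (if R s u then Q u * v u ^ 2 else 0) ≤ Q u * v u ^ 2 := by
    intro u
    rw [← Finset.sum_filter, Finset.sum_const, nsmul_eq_mul]
    refine mul_le_of_le_one_left (mul_nonneg (hQ u) (sq_nonneg _)) ?_
    rw [Nat.cast_le_one]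
    refine Finset.card_le_one.2 fun s hs s' hs' => ?_
    simp only [Finset.mem_filter, Finset.mem_univ, true_and, R] at hs hs'
    funext z
    by_cases hx : z = x
    · subst hx; exact Fin.ext (by omega)
    by_cases hy : z = y
    · subst hy; exact Fin.ext (by omega)
    rw [hs.1 z hx hy, hs'.1 z hx hy]
  simp only [qf, dotProduct, mulVec, Finset.mul_sum]
  calc |∑ s, ∑ u, v s * ((up n x * dn n y) s u * v u)|
      ≤ ∑ s, ∑ u, ((if R s u then P s * v s ^ 2 else 0) / 2
          + (if R s u then Q u * v u ^ 2 else 0) / 2) := by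
        refine (Finset.abs_sum_le_sum_abs _ _).trans (Finset.sum_le_sum fun s _ => ?_)
        exact (Finset.abs_sum_le_sum_abs _ _).trans (Finset.sum_le_sum fun u _ => hterm s u)
    _ ≤ (∑ s, P s * v s ^ 2 / 2) + ∑ u, Q u * v u ^ 2 / 2 := by
        simp only [Finset.sum_add_distrib, ← Finset.sum_div]
        rw [Finset.sum_comm (f := fun s u => if R s u then Q u * v u ^ 2 else 0)]
        gcongr with s _ u _
        · exact hone s
        · exact htwo u
    _ = _ := by
        rw [← Finset.sum_add_distrib]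
        exact Finset.sum_congr rfl fun s _ => by simp only [P, Q]; ring

lemma dotProduct_self_eq {I : Type*} [Fintype I] (v : I → ℝ) : v ⬝ᵥ v = ∑ s, v s ^ 2 :=
  Finset.sum_congr rfl fun s _ => (sq _).symm

lemma qf_dn_up {x y : V} (h : x ≠ y) (v : Cfg n V → ℝ) :
    qf (dn n x * up n y) v = qf (up n x * dn n y) v := by
  rw [show dn n x * up n y = (up n x * dn n y)ᵀ by
    rw [Matrix.transpose_mul, dn_transpose, up_transpose]
    exact atSite_comm h _ _, qf_transpose]

lemma qf_dotR {x y : V} (h : x ≠ y) (v : Cfg n V → ℝ) :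
    qf (dotR n x y) v = ∑ s, weight n (s x) * weight n (s y) * v s ^ 2
      + qf (up n x * dn n y) v := by
  rw [dotR, qf_add, qf_smul, qf_add, qf_dn_up h, zc_mul_zc, qf_diagonal]
  ring

/-- `S_x · S_y ≤ S²`. -/
lemma qf_dotR_le {x y : V} (h : x ≠ y) (v : Cfg n V → ℝ) :
    qf (dotR n x y) v ≤ ((n : ℝ) / 2) ^ 2 * (v ⬝ᵥ v) := by
  rw [qf_dotR h, dotProduct_self_eq, Finset.mul_sum]
  refine (add_le_add le_rfl ((le_abs_self _).trans (abs_qf_up_dn_le h v))).trans (le_of_eq ?_)
  rw [← Finset.sum_add_distrib]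
  refine Finset.sum_congr rfl fun s _ => ?_
  simp only [weight]; ring

/-- A crude two-sided bound on `S_x · S_y`. -/
lemma abs_qf_dotR_le {x y : V} (h : x ≠ y) (v : Cfg n V → ℝ) :
    |qf (dotR n x y) v| ≤ 2 * (n : ℝ) ^ 2 * (v ⬝ᵥ v) := by
  have hb : ∀ (s : Cfg n V) (z : V), ((s z : ℕ) : ℝ) ≤ n ∧ (0 : ℝ) ≤ (s z : ℕ) := fun s z =>
    ⟨by exact_mod_cast Nat.lt_succ_iff.1 (s z).2, Nat.cast_nonneg _⟩
  rw [qf_dotR h, dotProduct_self_eq, Finset.mul_sum]
  refine (abs_add_le _ _).trans ((add_le_add (Finset.abs_sum_le_sum_abs _ _)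
    (abs_qf_up_dn_le h v)).trans ?_)
  rw [← Finset.sum_add_distrib]
  refine Finset.sum_le_sum fun s _ => ?_
  rw [abs_mul, abs_of_nonneg (sq_nonneg (v s)), ← add_mul]
  refine mul_le_mul_of_nonneg_right ?_ (sq_nonneg _)
  have h1 : |weight n (s x) * weight n (s y)| ≤ ((n : ℝ) / 2) * ((n : ℝ) / 2) := by
    rw [abs_mul]
    exact mul_le_mul (abs_weight_le _) (abs_weight_le _) (abs_nonneg _) (by positivity)
  nlinarith [hb s x, hb s y]

/-- The bound used in the double commutator. -/
lemma qf_bond_le {x y : V} (h : x ≠ y) (v : Cfg n V → ℝ) :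
    qf ((2 : ℝ) • (zc n x * zc n y) + dn n x * up n y) v
      ≤ 2 * ((n : ℝ) / 2) ^ 2 * (v ⬝ᵥ v) := by
  have h1 := qf_dotR_le h v
  rw [qf_dotR h] at h1
  rw [qf_add, qf_smul, qf_dn_up h, zc_mul_zc, qf_diagonal]
  have h2 : ∑ s, weight n (s x) * weight n (s y) * v s ^ 2
      ≤ ((n : ℝ) / 2) ^ 2 * (v ⬝ᵥ v) := by
    rw [dotProduct_self_eq, Finset.mul_sum]
    refine Finset.sum_le_sum fun s _ => mul_le_mul_of_nonneg_right ?_ (sq_nonneg _)
    refine (le_abs_self _).trans ?_
    rw [abs_mul, sq]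
    exact mul_le_mul (abs_weight_le _) (abs_weight_le _) (abs_nonneg _) (by positivity)
  linarith

/-- The on-site sum rule `S⁺S⁻ + S⁻S⁺ + 2 (2 S - 1) S³ ≤ 4 S²`. -/
lemma qf_site_le (x : V) (v : Cfg n V → ℝ) :
    qf (up n x * dn n x + dn n x * up n x + (2 * ((n : ℝ) - 1)) • zc n x) v
      ≤ (n : ℝ) ^ 2 * (v ⬝ᵥ v) := by
  rw [up, dn, zc, atSite_mul, atSite_mul, raise_mul_transpose, transpose_mul_raise,
    weightOp, atSite_diagonal, atSite_diagonal, atSite_diagonal, qf_add, qf_add, qf_smul,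
    qf_diagonal, qf_diagonal, qf_diagonal, Finset.mul_sum, ← Finset.sum_add_distrib,
    ← Finset.sum_add_distrib, dotProduct_self_eq, Finset.mul_sum]
  refine Finset.sum_le_sum fun s _ => ?_
  rw [← mul_assoc, ← add_mul, ← add_mul]
  refine mul_le_mul_of_nonneg_right ?_ (sq_nonneg _)
  have h2 : ((s x : ℕ) : ℝ) ≤ ((s x : ℕ) : ℝ) ^ 2 := by
    exact_mod_cast Nat.le_self_pow two_ne_zero (s x : ℕ)
  simp only [weight]
  nlinarith

end Vale.Agent.P361
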