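import Vale.Agent.P361.Ineq

/-! # P361: the real form agrees with the complex spin Hamiltonian -/

namespace Vale.Agent.P361

open Matrix

variable {n : ℕ} {V : Type*} [Fintype V] [DecidableEq V]

/-- Entrywise complexification. -/
noncomputable def cx {I : Type*} [Fintype I] [DecidableEq I] :
    Matrix I I ℝ →+* Matrix I I ℂ := Complex.ofRealHom.mapMatrix

lemma cx_smul {I : Type*} [Fintype I] [DecidableEq I] (c : ℝ) (A : Matrix I I ℝ) :
    cx (c • A) = (c : ℂ) • cx A := by
  ext i j; simp [cx]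

lemma cx_atSite (x : V) (A : Matrix (Fin (n + 1)) (Fin (n + 1)) ℝ) :
    cx (atSite x A) = atSite x (cx A) := by
  ext s t
  simp only [cx, RingHom.mapMatrix_apply, Matrix.map_apply, atSite_apply,
    Complex.ofRealHom_eq_coe]
  split_ifs <;> simp

lemma spin1_eq (n : ℕ) : spin1 n = (1 / 2 : ℂ) • cx (raise n + (raise n)ᵀ) := by
  ext i j; simp [spin1, cx]; ring

lemma spin2_eq (n : ℕ) :
    spin2 n = (1 / (2 * Complex.I)) • cx (raise n - (raise n)ᵀ) := by
  ext i j; simp [spin2, cx]; ring_nf; rw [Complex.inv_I]; ring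

lemma spin3_eq (n : ℕ) : spin3 n = cx (weightOp n) := by
  ext i j
  rcases eq_or_ne i j with rfl | hij
  · simp [spin3, weightOp, cx]
  · simp [spin3, weightOp, cx, hij]

lemma dot_eq (x y : V) : dot n x y = cx (dotR n x y) := by
  have hI : (1 / (2 * Complex.I)) * (1 / (2 * Complex.I)) = -(1 / 4 : ℂ) := by
    field_simp
    rw [Complex.I_sq]; ring
  rw [dot, spin1_eq, spin2_eq, spin3_eq, atSite_smul, atSite_smul, atSite_smul, atSite_smul]
  simp only [← cx_atSite, atSite_add, atSite_sub]
  rw [smul_mul_smul_comm, smul_mul_smul_comm, hI]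
  simp only [dotR, up, dn, zc, map_add, map_sub, map_mul, cx_smul, add_mul, mul_add, sub_mul,
    mul_sub]
  push_cast
  module

/-- `S₁² + S₂² + S₃² = S (S + 1)` and the spin commutation relations. -/
lemma spin_relations (n : ℕ) :
    spin1 n * spin2 n - spin2 n * spin1 n = Complex.I • spin3 n ∧
    spin2 n * spin3 n - spin3 n * spin2 n = Complex.I • spin1 n ∧
    spin3 n * spin1 n - spin1 n * spin3 n = Complex.I • spin2 n ∧
    spin1 n * spin1 n + spin2 n * spin2 n + spin3 n * spin3 n
      = (((n : ℂ) / 2) * ((n : ℂ) / 2 + 1)) • (1 : Matrix (Fin (n + 1)) (Fin (n + 1)) ℂ) := by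
  have hinv : 1 / (2 * Complex.I) = -(1 / 2 : ℂ) * Complex.I := by
    field_simp
    rw [Complex.I_sq]; ring
  set R := raise n
  set W := weightOp n
  have h1 := congrArg cx (raise_comm n)
  have h2 := congrArg cx (weight_comm n)
  have h3 := congrArg cx (weight_comm_transpose n)
  simp only [map_sub, map_mul, cx_smul, map_neg] at h1 h2 h3
  rw [spin1_eq, spin2_eq, spin3_eq, hinv]
  simp only [map_add, map_sub, smul_mul_assoc, mul_smul_comm, mul_add, add_mul, mul_sub, sub_mul,
    smul_sub, smul_add, smul_smul]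
  refine ⟨?_, ?_, ?_, ?_⟩
  · rw [eq_comm, ← sub_eq_zero]
    linear_combination (norm := skip) (-(1 / 2 : ℂ) * Complex.I) • h1
    push_cast
    module
  · rw [eq_comm, ← sub_eq_zero]
    linear_combination (norm := skip)
      (-(1 / 2 : ℂ) * Complex.I) • h2 + ((1 / 2 : ℂ) * Complex.I) • h3
    module
  · rw [eq_comm, ← sub_eq_zero]
    linear_combination (norm := skip) (-(1 / 2 : ℂ)) • h2 + (-(1 / 2 : ℂ)) • h3
    simp only [smul_smul, ← mul_assoc]
    ring_nf
    simp only [Complex.I_sq]
    module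
  · have e1 : cx (R * Rᵀ + Rᵀ * R + (2 : ℝ) • (W * W))
        = ((2 : ℂ) * ((n : ℂ) / 2) * ((n : ℂ) / 2 + 1)) • 1 := by
      have : R * Rᵀ + Rᵀ * R + (2 : ℝ) • (W * W)
          = (2 * ((n : ℝ) / 2) * ((n : ℝ) / 2 + 1)) • 1 := by
        rw [raise_mul_transpose, transpose_mul_raise]
        simp only [W, weightOp, Matrix.diagonal_mul_diagonal, ← Matrix.diagonal_smul,
          Matrix.diagonal_add, ← Matrix.diagonal_one]
        congr 1
        funext i
        simp [weight]
        ring
      rw [this, cx_smul, map_one]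
      push_cast
      rfl
    simp only [map_add, map_mul, cx_smul] at e1
    linear_combination (norm := skip) (1 / 2 : ℂ) • e1
    simp only [← mul_assoc]
    ring_nf
    simp only [Complex.I_sq]
    push_cast
    module

lemma trace_exp_cx {I : Type*} [Fintype I] [DecidableEq I] {K : Matrix I I ℝ}
    (hK : K.IsHermitian) (β : ℝ) :
    Matrix.trace (NormedSpace.exp ((-β : ℂ) • cx K)) = (part β hK : ℂ) := by
  set U : Matrix I I ℝ := (evec hK)ᵀ with hU
  have h1 : U * Uᵀ = 1 := by rw [hU, transpose_transpose]; exact (evec_isONB hK).2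
  have h2 : Uᵀ * U = 1 := by rw [hU, transpose_transpose]; exact (evec_isONB hK).1
  have hdec : K = U * Matrix.diagonal hK.eigenvalues * Uᵀ := by
    have h3 : K * U = U * Matrix.diagonal hK.eigenvalues := by
      ext s i
      have := congrFun (evec_eigen hK i) s
      rw [Matrix.mul_diagonal]
      simpa [Matrix.mul_apply, mulVec, dotProduct, hU, mul_comm] using this
    rw [← h3, Matrix.mul_assoc, h1, Matrix.mul_one]
  have g1 : cx U * cx Uᵀ = 1 := by rw [← map_mul, h1, map_one]
  have g2 : cx Uᵀ * cx U = 1 := by rw [← map_mul, h2, map_one]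
  have hu : IsUnit (cx U) := ⟨⟨cx U, cx Uᵀ, g1, g2⟩, rfl⟩
  have hinv : (cx U)⁻¹ = cx Uᵀ := Matrix.inv_eq_right_inv g1
  have e : (-β : ℂ) • cx K = cx U *
      Matrix.diagonal (fun i => ((-β * hK.eigenvalues i : ℝ) : ℂ)) * (cx U)⁻¹ := by
    conv_lhs => rw [hdec]
    rw [hinv, map_mul, map_mul, ← Matrix.smul_mul, ← Matrix.mul_smul]
    congr 2
    ext i j
    rcases eq_or_ne i j with rfl | hij
    · simp [cx]
    · simp [cx, hij]
  rw [e, Matrix.exp_conj _ _ hu, Matrix.trace_mul_cycle, hinv, g2, Matrix.one_mul,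
    Matrix.exp_diagonal, Matrix.trace_diagonal, part, Complex.ofReal_sum]
  refine Finset.sum_congr rfl fun i _ => ?_
  rw [Pi.coe_exp, Complex.ofReal_exp, ← Complex.exp_eq_exp_ℂ]

lemma pressure_eq (n : ℕ) (l : Fin 3 → ℕ) (β h : ℝ) :
    pressure n l β h = logP n (bonds l) β h / (β * Fintype.card (Site l)) := by
  have hH : hamiltonian n l - (h : ℂ) • magnetization n l = cx (ham n (bonds l) h) := by
    rw [hamiltonian, magnetization, ham, map_sub, map_neg, map_sum, cx_smul, map_sum]
    simp only [dot_eq, zc, cx_atSite, ← spin3_eq]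
  rw [pressure, hH, trace_exp_cx (ham_isHermitian n (bonds l) h), Complex.ofReal_re, logP]

end Vale.Agent.P361
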