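import Mathlib

/-!
# P361: the spin-S Heisenberg ferromagnet on finite boxes

The spin is `S = n / 2`. The index `j : Fin (n + 1)` labels the weight vector with
`S³ = S - j`; `raise` is the raising matrix `S⁺`.
-/

namespace Vale.Agent.P361

open Matrix

/-- Eigenvalue `S - j` of `S³`. -/
noncomputable def weight (n : ℕ) (j : Fin (n + 1)) : ℝ := (n : ℝ) / 2 - (j : ℝ)

/-- The raising matrix `S⁺` of spin `n / 2` in the weight basis. -/
noncomputable def raise (n : ℕ) : Matrix (Fin (n + 1)) (Fin (n + 1)) ℝ :=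
  Matrix.of fun i j => if (j : ℕ) = i + 1 then √((j : ℝ) * ((n : ℝ) + 1 - j)) else 0

/-- `S³`, real form. -/
noncomputable def weightOp (n : ℕ) : Matrix (Fin (n + 1)) (Fin (n + 1)) ℝ :=
  Matrix.diagonal (weight n)

/-- `S¹ = (S⁺ + S⁻) / 2`. -/
noncomputable def spin1 (n : ℕ) : Matrix (Fin (n + 1)) (Fin (n + 1)) ℂ :=
  Matrix.of fun i j => ((raise n i j + raise n j i : ℝ) : ℂ) / 2

/-- `S² = (S⁺ - S⁻) / (2 i)`. -/
noncomputable def spin2 (n : ℕ) : Matrix (Fin (n + 1)) (Fin (n + 1)) ℂ :=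
  Matrix.of fun i j => ((raise n i j - raise n j i : ℝ) : ℂ) / (2 * Complex.I)

/-- `S³`. -/
noncomputable def spin3 (n : ℕ) : Matrix (Fin (n + 1)) (Fin (n + 1)) ℂ :=
  Matrix.diagonal fun j => ((weight n j : ℝ) : ℂ)

/-- Basis states of spins on the vertex set `V`. -/
abbrev Cfg (n : ℕ) (V : Type*) := V → Fin (n + 1)

/-- A one-site matrix acting at site `x` (identity at the other sites). -/
def atSite {n : ℕ} {V : Type*} [Fintype V] [DecidableEq V] {K : Type*} [Zero K] (x : V)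
    (A : Matrix (Fin (n + 1)) (Fin (n + 1)) K) : Matrix (Cfg n V) (Cfg n V) K :=
  Matrix.of fun s t => if ∀ z, z ≠ x → s z = t z then A (s x) (t x) else 0

/-- The product `S_x · S_y`. -/
noncomputable def dot (n : ℕ) {V : Type*} [Fintype V] [DecidableEq V] (x y : V) :
    Matrix (Cfg n V) (Cfg n V) ℂ :=
  atSite x (spin1 n) * atSite y (spin1 n) + atSite x (spin2 n) * atSite y (spin2 n)
    + atSite x (spin3 n) * atSite y (spin3 n)

/-- Sites of the box with side lengths `l`. -/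
abbrev Site (l : Fin 3 → ℕ) := ∀ i : Fin 3, Fin (l i)

/-- The nearest neighbour bonds of the box, each once: `y = x + e_i`. -/
def bonds (l : Fin 3 → ℕ) : Finset (Site l × Site l) :=
  Finset.univ.filter fun e =>
    ∃ i, (e.2 i : ℕ) = e.1 i + 1 ∧ ∀ j, j ≠ i → e.1 j = e.2 j

/-- `H = - ∑_bonds S_x · S_y`, free boundary conditions. -/
noncomputable def hamiltonian (n : ℕ) (l : Fin 3 → ℕ) :
    Matrix (Cfg n (Site l)) (Cfg n (Site l)) ℂ :=
  -∑ e ∈ bonds l, dot n e.1 e.2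

/-- `M = ∑ S³_x`. -/
noncomputable def magnetization (n : ℕ) (l : Fin 3 → ℕ) :
    Matrix (Cfg n (Site l)) (Cfg n (Site l)) ℂ :=
  ∑ x, atSite x (spin3 n)

/-- The cube with `2 N + 1` sites per side, a translate of `{-N,…,N}³`. -/
def cube (N : ℕ) : Fin 3 → ℕ := fun _ => 2 * N + 1

/-- `(β |Λ|)⁻¹ log Tr exp (-β (H - h M))`. -/
noncomputable def pressure (n : ℕ) (l : Fin 3 → ℕ) (β h : ℝ) : ℝ :=
  Real.log (Matrix.trace (NormedSpace.exp
      ((-β : ℂ) • (hamiltonian n l - (h : ℂ) • magnetization n l)))).re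
    / (β * (Fintype.card (Site l) : ℝ))

/-- Bloch's coefficient `ζ(3/2) / (8 π^(3/2) S^(3/2))`. -/
noncomputable def blochConst (S : ℝ) : ℝ :=
  (∑' j : ℕ, 1 / ((j : ℝ) + 1) ^ (3 / 2 : ℝ)) / (8 * Real.pi ^ (3 / 2 : ℝ) * S ^ (3 / 2 : ℝ))

end Vale.Agent.P361
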