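import Vale.Agent.P361.Bond

/-! # P361: the finite-volume spin-wave inequality -/

namespace Vale.Agent.P361

open Matrix

variable {n : ℕ} {V : Type*} [Fintype V] [DecidableEq V]

/-- `H - h M` in real form, for a list of bonds. -/
noncomputable def ham (n : ℕ) (B : Finset (V × V)) (h : ℝ) : Matrix (Cfg n V) (Cfg n V) ℝ :=
  -∑ e ∈ B, dotR n e.1 e.2 - h • ∑ x, zc n x

lemma dotR_transpose (x y : V) : (dotR n x y)ᵀ = dotR n x y := by
  rcases eq_or_ne x y with rfl | h
  · simp only [dotR, Matrix.transpose_add, Matrix.transpose_smul, Matrix.transpose_mul,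
      up_transpose, dn_transpose]
    simp [zc_eq]
  · exact dotR_isSymm n h

lemma ham_isHermitian (n : ℕ) (B : Finset (V × V)) (h : ℝ) : (ham n B h).IsHermitian := by
  rw [Matrix.IsHermitian, conjTranspose_eq_transpose_of_trivial]
  simp [ham, Matrix.transpose_sub, Matrix.transpose_sum, dotR_transpose, zc_eq]

/-- `log Tr exp (-β (H - h M))`. -/
noncomputable def logP (n : ℕ) (B : Finset (V × V)) (β h : ℝ) : ℝ :=
  Real.log (part β (ham_isHermitian n B h))

/-- The magnetization per site in the Gibbs state. -/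
noncomputable def mag (n : ℕ) (B : Finset (V × V)) (β h : ℝ) : ℝ :=
  avg β (ham_isHermitian n B h) (∑ x, zc n x) / Fintype.card V

lemma logP_tangent (B : Finset (V × V)) (β h h' : ℝ) :
    logP n B β h + β * (h' - h) * avg β (ham_isHermitian n B h) (∑ x, zc n x)
      ≤ logP n B β h' := by
  have h1 := log_part_ge β (ham_isHermitian n B h) (ham_isHermitian n B h')
  rw [show ham n B h' - ham n B h = (h - h') • ∑ x, zc n x by simp only [ham]; module,
    avg_smul] at h1
  simp only [logP]
  linarith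

lemma logP_convex (B : Finset (V × V)) (β : ℝ) : ConvexOn ℝ Set.univ (logP n B β) := by
  refine ⟨convex_univ, fun h1 _ h2 _ a b ha hb hab => ?_⟩
  simp only [smul_eq_mul]
  set h := a * h1 + b * h2 with hh
  have t1 := mul_le_mul_of_nonneg_left (logP_tangent (n := n) B β h h1) ha
  have t2 := mul_le_mul_of_nonneg_left (logP_tangent (n := n) B β h h2) hb
  have e : a * (h1 - h) + b * (h2 - h) = 0 := by
    have : a * h + b * h = h := by rw [← add_mul, hab, one_mul]
    linarith
  set M := avg β (ham_isHermitian n B h) (∑ x, zc n x)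
  have e2 : a * (β * (h1 - h) * M) + b * (β * (h2 - h) * M) = 0 := by
    linear_combination β * M * e
  have e3 : a * logP n B β h + b * logP n B β h = logP n B β h := by
    rw [← add_mul, hab, one_mul]
  linarith

lemma slope_le_mag (B : Finset (V × V)) {β h : ℝ} (hβ : 0 < β) (hh : 0 < h) [Nonempty V] :
    (logP n B β h / (β * Fintype.card V) - logP n B β 0 / (β * Fintype.card V)) / h
      ≤ mag n B β h := by
  have h1 := logP_tangent (n := n) B β h 0
  have hV : (0 : ℝ) < Fintype.card V := by exact_mod_cast Fintype.card_pos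
  rw [mag, ← sub_div, div_div, div_le_div_iff₀ (by positivity) hV]
  have h2 : logP n B β h - logP n B β 0
      ≤ β * h * avg β (ham_isHermitian n B h) (∑ x, zc n x) := by linarith
  nlinarith [mul_le_mul_of_nonneg_right h2 hV.le]

lemma doubleComm_ham (B : Finset (V × V)) (hB : ∀ e ∈ B, e.1 ≠ e.2) (h : ℝ) (a : V → ℝ) :
    br (br (wave n a) (ham n B h)) (wave n a)ᵀ =
      ∑ e ∈ B, (a e.1 - a e.2) • (a e.1 • ((2 : ℝ) • (zc n e.1 * zc n e.2)
          + dn n e.1 * up n e.2)
        - a e.2 • (up n e.1 * dn n e.2 + (2 : ℝ) • (zc n e.1 * zc n e.2)))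
      + h • br (wave n a) (wave n a)ᵀ := by
  rw [show ham n B h = ∑ e ∈ B, (-dotR n e.1 e.2) + (-h) • ∑ x, zc n x by
    rw [ham, Finset.sum_neg_distrib, neg_smul]; abel]
  rw [br_add_right, br_sum_right, br_smul_right, br_wave_sumZc, br_add_left, br_sum_left,
    br_smul_left, br_neg_left, smul_neg, neg_smul, neg_neg]
  congr 1
  exact Finset.sum_congr rfl fun e he => doubleComm_dotR a (hB e he)

variable {B : Finset (V × V)} {β h : ℝ}

lemma avg_doubleComm_le (hB : ∀ e ∈ B, e.1 ≠ e.2) (a : V → ℝ) :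
    avg β (ham_isHermitian n B h) (br (br (wave n a) (ham n B h)) (wave n a)ᵀ) ≤
      2 * ((n : ℝ) / 2) ^ 2 * ∑ e ∈ B, (a e.1 - a e.2) ^ 2
        + h * avg β (ham_isHermitian n B h) (br (wave n a) (wave n a)ᵀ) := by
  rw [doubleComm_ham B hB, avg_add, avg_smul, avg_sum, Finset.mul_sum]
  refine add_le_add (Finset.sum_le_sum fun e he => ?_) le_rfl
  have hsym : avg β (ham_isHermitian n B h) (up n e.1 * dn n e.2)
      = avg β (ham_isHermitian n B h) (dn n e.1 * up n e.2) := by
    simp [avg, qf_dn_up (hB e he)]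
  have hle := avg_le (β := β) (ham_isHermitian n B h) fun v => qf_bond_le (n := n) (hB e he) v
  rw [avg_add, avg_smul] at hle
  rw [avg_smul, avg_sub, avg_smul, avg_smul, avg_add, avg_add, avg_smul, hsym]
  nlinarith [mul_le_mul_of_nonneg_left hle (sq_nonneg (a e.1 - a e.2))]

lemma avg_br_waveT (a : V → ℝ) :
    avg β (ham_isHermitian n B h) (br (wave n a) (wave n a)ᵀ)
      = ∑ x, 2 * a x ^ 2 * avg β (ham_isHermitian n B h) (zc n x) := by
  simp [br_wave_waveT, avg_sum, avg_smul]

lemma avg_anti_waveT (a : V → ℝ) :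
    avg β (ham_isHermitian n B h) (wave n a * (wave n a)ᵀ + (wave n a)ᵀ * wave n a)
      = ∑ x, ∑ y, a x * a y *
          avg β (ham_isHermitian n B h) (up n x * dn n y + dn n x * up n y) := by
  rw [wave_transpose]
  simp only [wave, Finset.sum_mul, Finset.mul_sum, smul_mul_assoc, mul_smul_comm, avg_add,
    avg_sum, avg_smul, mul_add, Finset.sum_add_distrib, Finset.smul_sum]
  congr 1 <;>
  · rw [Finset.sum_comm]
    exact Finset.sum_congr rfl fun x _ => Finset.sum_congr rfl fun y _ => by ring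

/-- One mode of the inequality. -/
lemma mode_bound (hB : ∀ e ∈ B, e.1 ≠ e.2) (hh : 0 < h) (hβ : 0 < β) (φ : V → ℝ) {E : ℝ}
    (hE0 : 0 ≤ E) (hE : ∑ e ∈ B, 2 * (1 - Real.cos (φ e.1 - φ e.2)) ≤ Fintype.card V * E)
    (hm : 0 < mag n B β h) [Nonempty V] :
    2 * (Fintype.card V * mag n B β h)
        * (1 + 2 * bose (β * (((n : ℝ) / 2) ^ 2 * E / mag n B β h + h))) ≤
      ∑ x, ∑ y, Real.cos (φ x - φ y) *
        avg β (ham_isHermitian n B h) (up n x * dn n y + dn n x * up n y) := by
  set hK := ham_isHermitian n B h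
  set m := mag n B β h with hmd
  set y := β * (((n : ℝ) / 2) ^ 2 * E / m + h) with hyd
  have hy : 0 < y := mul_pos hβ (add_pos_of_nonneg_of_pos (by positivity) hh)
  have hV : (0 : ℝ) < Fintype.card V := by exact_mod_cast Fintype.card_pos
  have fc := falkBruch β hK (wave n fun x => Real.cos (φ x)) hy
  have fs := falkBruch β hK (wave n fun x => Real.sin (φ x)) hy
  have dc := avg_doubleComm_le (n := n) (β := β) (h := h) hB (fun x => Real.cos (φ x))
  have ds := avg_doubleComm_le (n := n) (β := β) (h := h) hB (fun x => Real.sin (φ x))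
  simp only [br] at dc ds
  have hc : avg β hK (wave n (fun x => Real.cos (φ x)) * (wave n fun x => Real.cos (φ x))ᵀ
        - (wave n fun x => Real.cos (φ x))ᵀ * wave n fun x => Real.cos (φ x))
      + avg β hK (wave n (fun x => Real.sin (φ x)) * (wave n fun x => Real.sin (φ x))ᵀ
        - (wave n fun x => Real.sin (φ x))ᵀ * wave n fun x => Real.sin (φ x))
      = 2 * (Fintype.card V * m) := by
    have e1 := avg_br_waveT (n := n) (B := B) (β := β) (h := h) (fun x => Real.cos (φ x))
    have e2 := avg_br_waveT (n := n) (B := B) (β := β) (h := h) (fun x => Real.sin (φ x))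
    simp only [br] at e1 e2
    rw [e1, e2, hmd, mag, mul_div_cancel₀ _ hV.ne', avg_sum, Finset.mul_sum,
      ← Finset.sum_add_distrib]
    refine Finset.sum_congr rfl fun x _ => ?_
    linear_combination (2 * avg β hK (zc n x)) * Real.sin_sq_add_cos_sq (φ x)
  have hT : ∑ e ∈ B, (Real.cos (φ e.1) - Real.cos (φ e.2)) ^ 2
      + ∑ e ∈ B, (Real.sin (φ e.1) - Real.sin (φ e.2)) ^ 2 ≤ Fintype.card V * E := by
    refine le_trans (le_of_eq ?_) hE
    rw [← Finset.sum_add_distrib]
    refine Finset.sum_congr rfl fun e _ => ?_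
    rw [Real.cos_sub]
    linear_combination Real.sin_sq_add_cos_sq (φ e.1) + Real.sin_sq_add_cos_sq (φ e.2)
  have hsum : ∑ x, ∑ y, Real.cos (φ x - φ y) * avg β hK (up n x * dn n y + dn n x * up n y)
      = avg β hK (wave n (fun x => Real.cos (φ x)) * (wave n fun x => Real.cos (φ x))ᵀ
        + (wave n fun x => Real.cos (φ x))ᵀ * wave n fun x => Real.cos (φ x))
      + avg β hK (wave n (fun x => Real.sin (φ x)) * (wave n fun x => Real.sin (φ x))ᵀ
        + (wave n fun x => Real.sin (φ x))ᵀ * wave n fun x => Real.sin (φ x)) := by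
    rw [avg_anti_waveT, avg_anti_waveT, ← Finset.sum_add_distrib]
    refine Finset.sum_congr rfl fun x _ => ?_
    rw [← Finset.sum_add_distrib]
    refine Finset.sum_congr rfl fun y _ => ?_
    rw [Real.cos_sub]; ring
  rw [hsum]
  have hyc : y * (2 * (Fintype.card V * m))
      = β * (2 * ((n : ℝ) / 2) ^ 2 * (Fintype.card V * E)
          + h * (2 * (Fintype.card V * m))) := by
    rw [hyd]; field_simp
  have hS := mul_le_mul_of_nonneg_left hT (by positivity : (0 : ℝ) ≤ 2 * ((n : ℝ) / 2) ^ 2)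
  have hD := add_le_add dc ds
  have hneg := boseD_neg hy
  have hb := mul_le_mul_of_nonneg_left hD hβ.le
  have hS' := mul_le_mul_of_nonneg_left hS hβ.le
  have hfac : 0 ≤ -(2 * boseD y) := by linarith
  have key := mul_le_mul_of_nonneg_left hb hfac
  have key2 := mul_le_mul_of_nonneg_left hS' hfac
  have hyc' := congrArg (fun t => (2 * boseD y) * t) hyc
  have hc' := congrArg (fun t => (1 + 2 * bose y) * t) hc
  have hch := congrArg (fun t => (2 * boseD y) * y * t) hc
  have hcb := congrArg (fun t => (2 * boseD y) * β * h * t) hc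
  linarith

/-- The finite-volume inequality for an orthogonal family of phases. -/
theorem magnetization_bound {κ : Type*} [Fintype κ] (hB : ∀ e ∈ B, e.1 ≠ e.2) (hn : 1 ≤ n)
    (hh : 0 < h) (hβ : 0 < β) (φ : κ → V → ℝ) (E : κ → ℝ) (hE0 : ∀ k, 0 ≤ E k)
    (horth : ∀ x y, ∑ k, Real.cos (φ k x - φ k y) = if x = y then (Fintype.card V : ℝ) else 0)
    (hE : ∀ k, ∑ e ∈ B, 2 * (1 - Real.cos (φ k e.1 - φ k e.2)) ≤ Fintype.card V * E k)
    (hm : 0 < mag n B β h) [Nonempty V] :
    2 * mag n B β h / n *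
        ((∑ k, bose (β * (((n : ℝ) / 2) ^ 2 * E k / mag n B β h + h))) / Fintype.card V)
      ≤ (n : ℝ) / 2 - mag n B β h := by
  set hK := ham_isHermitian n B h
  set m := mag n B β h with hmd
  have hV : (0 : ℝ) < Fintype.card V := by exact_mod_cast Fintype.card_pos
  have hcard : (Fintype.card κ : ℝ) = Fintype.card V := by
    have h1 := horth (Classical.arbitrary V) (Classical.arbitrary V)
    simpa using h1
  have h1 := Finset.sum_le_sum (s := Finset.univ) fun k (_ : k ∈ Finset.univ) =>
    mode_bound hB hh hβ (φ k) (hE0 k) (hE k) hm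
  rw [Finset.sum_comm] at h1
  conv_rhs at h1 => enter [2, x]; rw [Finset.sum_comm]
  simp only [← Finset.sum_mul, horth, ite_mul, zero_mul, Finset.sum_ite_eq, Finset.mem_univ,
    if_true, ← Finset.mul_sum, Finset.sum_add_distrib, Finset.sum_const, Finset.card_univ,
    nsmul_eq_mul, mul_one] at h1
  rw [hcard, ← hmd] at h1
  have h2 : ∑ x, avg β hK (up n x * dn n x + dn n x * up n x)
      ≤ (n : ℝ) ^ 2 * Fintype.card V - 2 * ((n : ℝ) - 1) * (Fintype.card V * m) := by
    rw [hmd, mag, mul_div_cancel₀ _ hV.ne', avg_sum, le_sub_iff_add_le, Finset.mul_sum,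
      ← Finset.sum_add_distrib]
    refine (Finset.sum_le_sum (g := fun _ => (n : ℝ) ^ 2) fun x _ => ?_).trans
      (le_of_eq (by simp [mul_comm]))
    have h3 := avg_le (β := β) hK fun v => qf_site_le (n := n) x v
    rwa [avg_add, avg_smul] at h3
  have hn0 : (0 : ℝ) < n := by exact_mod_cast hn
  have h4 := mul_le_mul_of_nonneg_left h2 hV.le
  have hne : (0 : ℝ) < n * Fintype.card V := by positivity
  rw [div_mul_div_comm, div_le_iff₀ hne]
  have h5 : 2 * ((Fintype.card V : ℝ) * m) * ((Fintype.card V : ℝ)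
      + 2 * ∑ k, bose (β * (((n : ℝ) / 2) ^ 2 * E k / m + h)))
      ≤ Fintype.card V * ((n : ℝ) ^ 2 * Fintype.card V
          - 2 * ((n : ℝ) - 1) * (Fintype.card V * m)) := le_trans h1 h4
  nlinarith

end Vale.Agent.P361
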