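import Vale.Agent.P361.Riemann

/-! # P361: assembling the upper bound on the spontaneous magnetization -/

namespace Vale.Agent.P361

open Matrix Filter Topology

lemma bose_anti {y y' : ℝ} (hy : 0 < y) (h : y ≤ y') : bose y' ≤ bose y :=
  one_div_le_one_div_of_le (by linarith [Real.one_lt_exp_iff.2 hy])
    (by linarith [Real.exp_le_exp.2 h])

lemma rpow_three_half {x : ℝ} (hx : 0 ≤ x) : x ^ (3 / 2 : ℝ) = √x ^ 3 := by
  rw [Real.sqrt_eq_rpow, ← Real.rpow_natCast, ← Real.rpow_mul hx]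
  norm_num

/-- The finite-volume lower bound on `S - slope`. -/
noncomputable def depletion (n J : ℕ) (η β h L : ℝ) : ℝ :=
  min ((n : ℝ) / 2 * η) ((1 - η) * ∑ j ∈ Finset.range J, Real.exp (-((j : ℝ) + 1) * (β * h)) *
    max 0 (axisInt (((j : ℝ) + 1) * (β * ((n : ℝ) / 2) / (1 - η))) - 1 / L) ^ 3)

lemma slope_cube_le {n : ℕ} (hn : 1 ≤ n) (J N : ℕ) {η β h : ℝ} (hη : η < 1)
    (hβ : 0 < β) (hh : 0 < h) :
    (pressure n (cube N) β h - pressure n (cube N) β 0) / h
      ≤ (n : ℝ) / 2 - depletion n J η β h ((2 * N + 1 : ℕ) : ℝ) := by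
  haveI : Nonempty (Site (cubeL (2 * N + 1))) := ⟨fun _ => ⟨0, Nat.succ_pos _⟩⟩
  rw [pressure_eq, pressure_eq]
  refine le_trans (slope_le_mag (n := n) (bonds (cubeL (2 * N + 1))) hβ hh) ?_
  set m := mag n (bonds (cubeL (2 * N + 1))) β h with hm
  rw [le_sub_iff_add_le, depletion]
  have hn0 : (0 : ℝ) < n := by exact_mod_cast hn
  by_cases hsmall : m ≤ (n : ℝ) / 2 * (1 - η)
  · have := min_le_left ((n : ℝ) / 2 * η) ((1 - η) * ∑ j ∈ Finset.range J,
      Real.exp (-((j : ℝ) + 1) * (β * h)) * max 0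
        (axisInt (((j : ℝ) + 1) * (β * ((n : ℝ) / 2) / (1 - η))) - 1 / ((2 * N + 1 : ℕ) : ℝ)) ^ 3)
    linarith
  push Not at hsmall
  have h1η : 0 < 1 - η := by linarith
  have hm0 : 0 < m := lt_trans (by positivity) hsmall
  have hmain := magnetization_bound (n := n) (B := bonds (cubeL (2 * N + 1))) (β := β) (h := h)
    (fun e he => bonds_ne he) hn hh hβ (phase (2 * N + 1)) (disp (2 * N + 1))
    (disp_nonneg _) (phase_orth _) (phase_bonds _ ) hm0
  set a := β * ((n : ℝ) / 2) / (1 - η) with ha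
  have ha0 : 0 ≤ a := by positivity
  have hmean := mean_bose_ge N J ha0 (mul_pos hβ hh)
  have hle : ∀ k, bose (a * disp (2 * N + 1) k + β * h)
      ≤ bose (β * (((n : ℝ) / 2) ^ 2 * disp (2 * N + 1) k / m + h)) := by
    intro k
    have hE := disp_nonneg (2 * N + 1) k
    refine bose_anti (mul_pos hβ (add_pos_of_nonneg_of_pos (by positivity) hh)) ?_
    rw [mul_add, add_le_add_iff_right]
    calc β * (((n : ℝ) / 2) ^ 2 * disp (2 * N + 1) k / m)
        ≤ β * (((n : ℝ) / 2) ^ 2 * disp (2 * N + 1) k / ((n : ℝ) / 2 * (1 - η))) := by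
          gcongr
      _ = a * disp (2 * N + 1) k := by rw [ha]; field_simp
  have h2 := hmean.trans (div_le_div_of_nonneg_right (Finset.sum_le_sum fun k _ => hle k)
    (Nat.cast_nonneg _))
  have h3 : 1 - η ≤ 2 * m / n := by rw [le_div_iff₀ hn0]; linarith
  have h4 := mul_le_mul h3 h2 (Finset.sum_nonneg fun j _ =>
    mul_nonneg (Real.exp_pos _).le (pow_nonneg (le_max_left _ _) 3)) (by positivity)
  have h5 := min_le_right ((n : ℝ) / 2 * η) ((1 - η) * ∑ j ∈ Finset.range J,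
      Real.exp (-((j : ℝ) + 1) * (β * h)) *
        max 0 (axisInt (((j : ℝ) + 1) * a) - 1 / ((2 * N + 1 : ℕ) : ℝ)) ^ 3)
  linarith

lemma pressure_convex {n : ℕ} {β : ℝ} (hβ : 0 < β) {p : ℝ → ℝ}
    (hp : ∀ h, Tendsto (fun N => pressure n (cube N) β h) atTop (𝓝 (p h))) :
    ConvexOn ℝ Set.univ p := by
  refine ⟨convex_univ, fun x _ y _ a b ha hb hab => ?_⟩
  simp only [smul_eq_mul]
  refine le_of_tendsto_of_tendsto (hp _) (((hp x).const_mul a).add ((hp y).const_mul b))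
    (Eventually.of_forall fun N => ?_)
  have hc := (logP_convex (n := n) (bonds (cube N)) β).2 (Set.mem_univ x) (Set.mem_univ y) ha hb hab
  simp only [smul_eq_mul] at hc
  simp only [pressure_eq]
  rw [mul_div_assoc', mul_div_assoc', ← add_div]
  exact div_le_div_of_nonneg_right hc (by positivity)

/-- The spin-wave depletion in infinite volume with `J` terms of the geometric series. -/
noncomputable def leading (n J : ℕ) (η : ℝ) : ℝ :=
  (1 - η) * ∑ j ∈ Finset.range J,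
    (√(Real.pi * (1 - η) / (((j : ℝ) + 1) * ((n : ℝ) / 2))) / (2 * Real.pi)) ^ 3

lemma exists_params {n : ℕ} (hn : 1 ≤ n) {ε : ℝ} (hε : 0 < ε) :
    ∃ J η, 0 < η ∧ η < 1 ∧ blochConst ((n : ℝ) / 2) - ε < leading n J η := by
  set S : ℝ := (n : ℝ) / 2 with hS
  have hS0 : 0 < S := by
    have : (0 : ℝ) < n := by exact_mod_cast hn
    positivity
  have hpi := Real.pi_pos
  set D : ℝ := 8 * Real.pi ^ (3 / 2 : ℝ) * S ^ (3 / 2 : ℝ) with hD
  have hsum : Summable fun j : ℕ => 1 / ((j : ℝ) + 1) ^ (3 / 2 : ℝ) := by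
    have h := (summable_nat_add_iff (f := fun m : ℕ => 1 / (m : ℝ) ^ (3 / 2 : ℝ)) 1).2
      (Real.summable_one_div_nat_rpow.2 (by norm_num))
    refine h.congr fun j => ?_
    push_cast; rfl
  have hlim : Tendsto (fun J => leading n J 0) atTop (𝓝 (blochConst S)) := by
    refine (hsum.hasSum.tendsto_sum_nat.div_const D).congr fun J => ?_
    rw [leading, Finset.sum_div, sub_zero, one_mul, mul_one]
    refine Finset.sum_congr rfl fun j _ => ?_
    have hj : (0 : ℝ) < (j : ℝ) + 1 := by positivity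
    rw [hD, rpow_three_half hj.le, rpow_three_half hpi.le, rpow_three_half hS0.le,
      Real.sqrt_div hpi.le, Real.sqrt_mul hj.le]
    have hs : √Real.pi ^ 2 = Real.pi := Real.sq_sqrt hpi.le
    have : 0 < √S := Real.sqrt_pos.2 hS0
    have : 0 < √((j : ℝ) + 1) := Real.sqrt_pos.2 hj
    have : 0 < √Real.pi := Real.sqrt_pos.2 hpi
    field_simp
    rw [show √Real.pi ^ 6 = (√Real.pi ^ 2) ^ 3 by ring, hs, hS]
    ring
  obtain ⟨J, hJ⟩ := (hlim.eventually (eventually_gt_nhds (sub_lt_self _ hε))).exists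
  have hcont : Continuous fun η => leading n J η := by unfold leading; fun_prop
  have hev : ∀ᶠ η in 𝓝[>] (0 : ℝ),
      0 < η ∧ η < 1 ∧ blochConst S - ε < leading n J η := by
    refine (eventually_mem_nhdsWithin).and ?_
    refine ((eventually_lt_nhds (show (0 : ℝ) < 1 by norm_num)).and
      (hcont.tendsto 0 |>.eventually (eventually_gt_nhds hJ))).filter_mono nhdsWithin_le_nhds
  obtain ⟨η, h1, h2, h3⟩ := hev.exists
  exact ⟨J, η, h1, h2, h3⟩

/-- The sharp one-sided half of Bloch's law. -/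
theorem bloch_upper (n : ℕ) (hn : 1 ≤ n) (ε : ℝ) (hε : 0 < ε) :
    ∃ β0 : ℝ, 0 < β0 ∧ ∀ β, β0 ≤ β → ∃ p : ℝ → ℝ,
      (∀ h, Tendsto (fun N => pressure n (cube N) β h) atTop (𝓝 (p h))) ∧
      ConvexOn ℝ Set.univ p ∧ ∃ m, HasDerivWithinAt p m (Set.Ici 0) 0 ∧
        blochConst ((n : ℝ) / 2) - ε ≤ β ^ (3 / 2 : ℝ) * ((n : ℝ) / 2 - m) := by
  obtain ⟨J, η, hη0, hη1, hJ⟩ := exists_params hn hε
  have hn0 : (0 : ℝ) < n := by exact_mod_cast hn
  have h1η : 0 < 1 - η := by linarith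
  have hA : Tendsto (fun β : ℝ => (1 - η) * ∑ j ∈ Finset.range J,
      (√β * axisInt (((j : ℝ) + 1) * ((n : ℝ) / 2) / (1 - η) * β)) ^ 3) atTop
      (𝓝 (leading n J η)) := by
    refine (tendsto_finsetSum _ fun j _ => ?_).const_mul _
    have hc : 0 < ((j : ℝ) + 1) * ((n : ℝ) / 2) / (1 - η) := by positivity
    have := (tendsto_axisInt hc).pow 3
    rwa [div_div_eq_mul_div] at this
  have hB : Tendsto (fun β : ℝ => √β ^ 3 * ((n : ℝ) / 2 * η)) atTop atTop :=
    ((tendsto_pow_atTop (α := ℝ) (by norm_num : (3 : ℕ) ≠ 0)).comp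
      Real.tendsto_sqrt_atTop).atTop_mul_const (by positivity)
  obtain ⟨β1, hβ1⟩ := eventually_atTop.1 ((hA.eventually (eventually_gt_nhds hJ)).and
    (hB.eventually (eventually_ge_atTop (blochConst ((n : ℝ) / 2) - ε))))
  refine ⟨max β1 1, lt_max_of_lt_right one_pos, fun β hβ => ?_⟩
  have hβ0 : 0 < β := lt_of_lt_of_le one_pos ((le_max_right _ _).trans hβ)
  obtain ⟨hA', hB'⟩ := hβ1 β ((le_max_left _ _).trans hβ)
  choose p hp using pressure_tendsto n hβ0
  have hconv := pressure_convex hβ0 hp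
  have hder := hconv.hasDerivWithinAt_rightDeriv_of_mem_interior
    (show (0 : ℝ) ∈ interior Set.univ by simp)
  set m := derivWithin p (Set.Ioi 0) 0
  refine ⟨p, hp, hconv, m, hasDerivWithinAt_Ioi_iff_Ici.1 hder, ?_⟩
  set c : ℕ → ℝ := fun j => ((j : ℝ) + 1) * (β * ((n : ℝ) / 2) / (1 - η)) with hc
  set R : ℝ → ℝ := fun h => min ((n : ℝ) / 2 * η) ((1 - η) * ∑ j ∈ Finset.range J,
    Real.exp (-((j : ℝ) + 1) * (β * h)) * max 0 (axisInt (c j)) ^ 3) with hR
  have hstep : ∀ h, 0 < h → (p h - p 0) / h ≤ (n : ℝ) / 2 - R h := by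
    intro h hh
    have hL : Tendsto (fun N : ℕ => 1 / ((2 * N + 1 : ℕ) : ℝ)) atTop (𝓝 0) := by
      refine tendsto_const_nhds.div_atTop (tendsto_natCast_atTop_atTop.comp ?_)
      exact tendsto_atTop_mono (fun N => by simp only [id]; omega) tendsto_id
    refine le_of_tendsto_of_tendsto (((hp h).sub (hp 0)).div_const h) ?_
      (Eventually.of_forall fun N => slope_cube_le hn J N (η := η) hη1 hβ0 hh)
    simp only [depletion, hR, hc]
    refine tendsto_const_nhds.sub (tendsto_const_nhds.min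
      ((tendsto_finsetSum _ fun j _ => ?_).const_mul _))
    refine (((tendsto_const_nhds.max ?_)).pow 3).const_mul _
    simpa using tendsto_const_nhds.sub hL
  have hslope : Tendsto (fun h => (p h - p 0) / h) (𝓝[>] 0) (𝓝 m) := by
    have h1 := (hasDerivWithinAt_iff_tendsto_slope' (by simp)).1 hder
    refine h1.congr fun h => ?_
    rw [slope_def_field, sub_zero]
  have hRc : Tendsto (fun h => (n : ℝ) / 2 - R h) (𝓝[>] 0) (𝓝 ((n : ℝ) / 2 - R 0)) := by
    refine Tendsto.mono_left ?_ nhdsWithin_le_nhds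
    exact ((by simp only [hR]; fun_prop : Continuous fun h => (n : ℝ) / 2 - R h)).tendsto 0
  have hm : m ≤ (n : ℝ) / 2 - R 0 :=
    le_of_tendsto_of_tendsto hslope hRc (eventually_mem_nhdsWithin.mono fun h hh => hstep h hh)
  have hpow : 0 ≤ √β ^ 3 := by positivity
  rw [rpow_three_half hβ0.le]
  refine le_trans ?_ (mul_le_mul_of_nonneg_left (show R 0 ≤ (n : ℝ) / 2 - m by linarith) hpow)
  simp only [hR, mul_min_of_nonneg _ _ hpow]
  refine le_min hB' (hA'.le.trans (le_of_eq ?_))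
  rw [Finset.mul_sum, Finset.mul_sum, Finset.mul_sum]
  refine Finset.sum_congr rfl fun j _ => ?_
  rw [hc, max_eq_right (axisInt_nonneg _), mul_zero, mul_zero, Real.exp_zero, mul_pow]
  simp only [one_mul]
  rw [show ((j : ℝ) + 1) * (β * ((n : ℝ) / 2) / (1 - η))
    = ((j : ℝ) + 1) * ((n : ℝ) / 2) / (1 - η) * β by ring]
  ring

end Vale.Agent.P361
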