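import Vale.Agent.P361.Split

/-! # P361: momenta of the cube and the spin-wave Riemann sum -/

namespace Vale.Agent.P361

open Matrix Filter Topology

/-- The phase `k · x`. -/
noncomputable def phase (L : ℕ) (k x : Site (cubeL L)) : ℝ :=
  ∑ i, 2 * Real.pi * (k i : ℕ) * (x i : ℕ) / L

/-- `2 ∑ (1 - cos k_i)`. -/
noncomputable def disp (L : ℕ) (k : Site (cubeL L)) : ℝ :=
  ∑ i, 2 * (1 - Real.cos (2 * Real.pi * (k i : ℕ) / L))

lemma disp_nonneg (L : ℕ) (k : Site (cubeL L)) : 0 ≤ disp L k :=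
  Finset.sum_nonneg fun i _ => by linarith [Real.cos_le_one (2 * Real.pi * (k i : ℕ) / L)]

lemma sum_char {L : ℕ} (a b : Fin L) :
    ∑ l : Fin L, Complex.exp ((2 * Real.pi * (l : ℕ) * ((a : ℝ) - (b : ℝ)) / L : ℝ) * Complex.I)
      = if a = b then (L : ℂ) else 0 := by
  have hL : (L : ℝ) ≠ 0 := by
    have : 0 < L := a.pos
    positivity
  set θ : ℝ := 2 * Real.pi * ((a : ℝ) - (b : ℝ)) / L with hθ
  set w := Complex.exp ((θ : ℂ) * Complex.I) with hw
  have hterm : ∀ l : Fin L, Complex.exp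
      ((2 * Real.pi * (l : ℕ) * ((a : ℝ) - (b : ℝ)) / L : ℝ) * Complex.I) = w ^ (l : ℕ) := by
    intro l
    rw [hw, ← Complex.exp_nat_mul, hθ]
    push_cast
    ring_nf
  simp only [hterm]
  rw [Fin.sum_univ_eq_sum_range (fun l => w ^ l)]
  split_ifs with h
  · subst h; simp [hw, hθ]
  · have hw1 : w ≠ 1 := by
      intro h1
      obtain ⟨m, hm⟩ := Complex.exp_eq_one_iff.1 h1
      have h2 : θ = m * (2 * Real.pi) := by
        have := congrArg Complex.im hm
        simpa using this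
      have h3 : ((a : ℕ) : ℤ) - (b : ℕ) = m * L := by
        have : (a : ℝ) - (b : ℝ) = m * L := by
          rw [hθ] at h2; field_simp at h2
          nlinarith [Real.pi_pos]
        exact_mod_cast this
      have ha := a.2
      have hb := b.2
      have hne : (a : ℕ) ≠ b := fun h => by simp_all [Fin.ext_iff]
      rcases lt_trichotomy m 0 with hm0 | hm0 | hm0
      · nlinarith
      · subst hm0; omega
      · nlinarith
    have hwL : w ^ L = 1 := by
      rw [hw, ← Complex.exp_nat_mul, Complex.exp_eq_one_iff]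
      refine ⟨(a : ℕ) - (b : ℕ), ?_⟩
      have hL' : (L : ℂ) ≠ 0 := by exact_mod_cast hL
      rw [hθ]
      push_cast
      field_simp
    rw [geom_sum_eq hw1, hwL, sub_self, zero_div]

lemma phase_orth (L : ℕ) (x y : Site (cubeL L)) :
    ∑ k, Real.cos (phase L k x - phase L k y)
      = if x = y then (Fintype.card (Site (cubeL L)) : ℝ) else 0 := by
  have h : ∑ k : Site (cubeL L), Complex.exp (((phase L k x - phase L k y : ℝ) : ℂ) * Complex.I)
      = if x = y then ((Fintype.card (Site (cubeL L)) : ℝ) : ℂ) else 0 := by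
    have e : ∀ k : Site (cubeL L),
        Complex.exp (((phase L k x - phase L k y : ℝ) : ℂ) * Complex.I) = ∏ i, Complex.exp
          ((2 * Real.pi * (k i : ℕ) * ((x i : ℝ) - (y i : ℝ)) / L : ℝ) * Complex.I) := by
      intro k
      rw [← Complex.exp_sum, ← Finset.sum_mul, ← Complex.ofReal_sum, phase, phase,
        ← Finset.sum_sub_distrib]
      refine congrArg (fun r : ℝ => Complex.exp ((r : ℂ) * Complex.I))
        (Finset.sum_congr rfl fun i _ => ?_)
      ring
    simp only [e]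
    rw [← Fintype.prod_sum (fun i (l : Fin (cubeL L i)) => Complex.exp
      ((2 * Real.pi * (l : ℕ) * ((x i : ℝ) - (y i : ℝ)) / L : ℝ) * Complex.I))]
    simp only [sum_char, card_site]
    split_ifs with hxy
    · subst hxy; simp [cubeL]
    · obtain ⟨i, hi⟩ := Function.ne_iff.1 hxy
      exact Finset.prod_eq_zero (Finset.mem_univ i) (by simp [hi])
  have h2 := congrArg Complex.re h
  rw [Complex.re_sum] at h2
  simp only [Complex.exp_ofReal_mul_I_re, apply_ite Complex.re, Complex.ofReal_re,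
    Complex.zero_re] at h2
  exact h2

lemma phase_bonds (L : ℕ) (k : Site (cubeL L)) :
    ∑ e ∈ bonds (cubeL L), 2 * (1 - Real.cos (phase L k e.1 - phase L k e.2))
      ≤ Fintype.card (Site (cubeL L)) * disp L k := by
  rw [bonds_eq, Finset.sum_biUnion (axisBonds_disjoint L), disp, Finset.mul_sum]
  refine Finset.sum_le_sum fun i _ => ?_
  have e : ∀ e ∈ axisBonds L i, 2 * (1 - Real.cos (phase L k e.1 - phase L k e.2))
      = 2 * (1 - Real.cos (2 * Real.pi * (k i : ℕ) / L)) := by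
    intro e he
    simp only [axisBonds, Finset.mem_filter, Finset.mem_univ, true_and] at he
    rw [phase, phase, ← Finset.sum_sub_distrib, Finset.sum_eq_single i]
    · rw [he.1, ← Real.cos_neg (2 * Real.pi * (k i : ℕ) / L)]
      push_cast
      ring_nf
    · intro j _ hj
      rw [he.2 j hj, sub_self]
    · simp
  rw [Finset.sum_congr rfl e, Finset.sum_const, nsmul_eq_mul]
  refine mul_le_mul_of_nonneg_right ?_
    (by linarith [Real.cos_le_one (2 * Real.pi * (k i : ℕ) / L)])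
  exact_mod_cast card_axisBonds_le L i

/-- The Gaussian integral of one axis. -/
noncomputable def axisInt (c : ℝ) : ℝ :=
  (∫ u in (0 : ℝ)..Real.pi, Real.exp (-c * u ^ 2)) / Real.pi

lemma axisInt_nonneg (c : ℝ) : 0 ≤ axisInt c :=
  div_nonneg (intervalIntegral.integral_nonneg Real.pi_pos.le fun u _ => (Real.exp_pos _).le)
    Real.pi_pos.le

lemma axis_sum_ge (N : ℕ) {c : ℝ} (hc : 0 ≤ c) :
    ((2 * N + 1 : ℕ) : ℝ) * axisInt c - 1 ≤ ∑ l : Fin (2 * N + 1),
      Real.exp (-(2 * c) * (1 - Real.cos (2 * Real.pi * (l : ℕ) / (2 * N + 1 : ℕ)))) := by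
  set L : ℝ := ((2 * N + 1 : ℕ) : ℝ) with hL
  have hL0 : 0 < L := by positivity
  set f : ℕ → ℝ := fun l => Real.exp (-(2 * c) * (1 - Real.cos (2 * Real.pi * l / L))) with hf
  set δ : ℝ := 2 * Real.pi / L with hδ
  have hδ0 : 0 < δ := by positivity
  set F : ℝ → ℝ := fun t => Real.exp (-c * (δ * t) ^ 2) with hF
  rw [Fin.sum_univ_eq_sum_range (fun l => f l)]
  have hfF : ∀ l : ℕ, F l ≤ f l := by
    intro l
    refine Real.exp_le_exp.2 ?_
    have h1 := Real.one_sub_sq_div_two_le_cos (x := 2 * Real.pi * l / L)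
    have h2 : δ * (l : ℝ) = 2 * Real.pi * l / L := by rw [hδ]; ring
    rw [h2]
    nlinarith
  have hsym : ∑ l ∈ Finset.range (2 * N + 1), f l
      = ∑ l ∈ Finset.range (N + 1), f l + ∑ l ∈ Finset.range N, f (l + 1) := by
    rw [show 2 * N + 1 = (N + 1) + N by ring, Finset.sum_range_add]
    congr 1
    rw [← Finset.sum_range_reflect]
    refine Finset.sum_congr rfl fun l hl => ?_
    rw [Finset.mem_range] at hl
    simp only [hf]
    have e : ((N + 1 + (N - 1 - l) : ℕ) : ℝ) = L - ((l + 1 : ℕ) : ℝ) := by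
      rw [hL, eq_sub_iff_add_eq]
      exact_mod_cast (by omega : N + 1 + (N - 1 - l) + (l + 1) = 2 * N + 1)
    rw [e, show 2 * Real.pi * (L - ((l + 1 : ℕ) : ℝ)) / L
        = 2 * Real.pi - 2 * Real.pi * ((l + 1 : ℕ) : ℝ) / L by field_simp,
      Real.cos_two_pi_sub]
  have h1 : ∑ l ∈ Finset.range (N + 1), F l ≤ ∑ l ∈ Finset.range (N + 1), f l :=
    Finset.sum_le_sum fun l _ => hfF l
  have h2 : ∑ l ∈ Finset.range N, F (l + 1 : ℕ) ≤ ∑ l ∈ Finset.range N, f (l + 1) :=
    Finset.sum_le_sum fun l _ => hfF (l + 1)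
  have h3 : ∑ l ∈ Finset.range (N + 1), F l = ∑ l ∈ Finset.range N, F (l + 1 : ℕ) + 1 := by
    rw [Finset.sum_range_succ']; simp [hF]
  have hanti : AntitoneOn F (Set.Icc (0 : ℝ) (0 + (N + 1 : ℕ))) := by
    intro s hs t ht hst
    refine Real.exp_le_exp.2 ?_
    have hs0 : 0 ≤ δ * s := mul_nonneg hδ0.le hs.1
    have h5 : (δ * s) ^ 2 ≤ (δ * t) ^ 2 :=
      pow_le_pow_left₀ hs0 (mul_le_mul_of_nonneg_left hst hδ0.le) 2
    nlinarith
  have h4 := hanti.integral_le_sum
  simp only [zero_add] at h4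
  have h6 : δ⁻¹ * (Real.pi * axisInt c) ≤ ∫ t in (0 : ℝ)..((N + 1 : ℕ) : ℝ), F t := by
    simp only [hF]
    rw [intervalIntegral.integral_comp_mul_left (fun u => Real.exp (-c * u ^ 2)) hδ0.ne',
      mul_zero, smul_eq_mul, axisInt, mul_div_cancel₀ _ Real.pi_pos.ne']
    refine mul_le_mul_of_nonneg_left ?_ (inv_nonneg.2 hδ0.le)
    refine intervalIntegral.integral_mono_interval le_rfl Real.pi_pos.le ?_
      (Filter.Eventually.of_forall fun u => (Real.exp_pos _).le)
      ((by fun_prop : Continuous fun u => Real.exp (-c * u ^ 2)).intervalIntegrable _ _)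
    rw [hδ, div_mul_eq_mul_div, le_div_iff₀ hL0, hL]
    push_cast
    nlinarith [Real.pi_pos]
  have h7 : δ⁻¹ * (Real.pi * axisInt c) = L * axisInt c / 2 := by
    rw [hδ]; field_simp
  linarith

lemma bose_ge (J : ℕ) {y : ℝ} (hy : 0 < y) :
    ∑ j ∈ Finset.range J, Real.exp (-((j : ℝ) + 1) * y) ≤ bose y := by
  have hr1 : Real.exp (-y) < 1 := Real.exp_lt_one_iff.2 (by linarith)
  have e : ∀ j : ℕ, Real.exp (-((j : ℝ) + 1) * y) = Real.exp (-y) * Real.exp (-y) ^ j := by
    intro j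
    rw [← Real.exp_nat_mul, ← Real.exp_add]
    congr 1; ring
  simp only [e]
  rw [← Finset.mul_sum]
  refine (mul_le_mul_of_nonneg_left
    ((summable_geometric_of_lt_one (Real.exp_pos _).le hr1).sum_le_tsum _
      fun j _ => pow_nonneg (Real.exp_pos _).le j) (Real.exp_pos _).le).trans (le_of_eq ?_)
  rw [tsum_geometric_of_lt_one (Real.exp_pos _).le hr1, bose, Real.exp_neg]
  have : Real.exp y - 1 ≠ 0 := by linarith [Real.one_lt_exp_iff.2 hy]
  field_simp

/-- The spin-wave sum in a cube. -/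
lemma mean_bose_ge (N J : ℕ) {a b : ℝ} (ha : 0 ≤ a) (hb : 0 < b) :
    ∑ j ∈ Finset.range J, Real.exp (-((j : ℝ) + 1) * b) *
        max 0 (axisInt (((j : ℝ) + 1) * a) - 1 / ((2 * N + 1 : ℕ) : ℝ)) ^ 3
      ≤ (∑ k, bose (a * disp (2 * N + 1) k + b)) /
          Fintype.card (Site (cubeL (2 * N + 1))) := by
  rw [card_site]
  set L := 2 * N + 1 with hL
  have hL0 : (0 : ℝ) < L := by rw [hL]; positivity
  rw [le_div_iff₀ (by push_cast; positivity), Finset.sum_mul]
  refine le_trans ?_ (Finset.sum_le_sum fun k _ => bose_ge J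
    (add_pos_of_nonneg_of_pos (mul_nonneg ha (disp_nonneg L k)) hb))
  rw [Finset.sum_comm]
  refine Finset.sum_le_sum fun j _ => ?_
  set jj : ℝ := (j : ℝ) + 1
  have hjj : 0 ≤ jj := by positivity
  have e : ∀ k : Site (cubeL L), Real.exp (-jj * (a * disp L k + b)) = Real.exp (-jj * b) *
      ∏ i, Real.exp (-(2 * (jj * a)) * (1 - Real.cos (2 * Real.pi * (k i : ℕ) / L))) := by
    intro k
    rw [← Real.exp_sum, ← Real.exp_add, disp, mul_add, ← Finset.mul_sum]
    congr 1
    rw [Finset.mul_sum, Finset.mul_sum, Finset.mul_sum, add_comm]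
    refine congrArg₂ (· + ·) rfl (Finset.sum_congr rfl fun i _ => ?_)
    ring
  simp only [e]
  rw [← Finset.mul_sum, mul_assoc]
  refine mul_le_mul_of_nonneg_left ?_ (Real.exp_pos _).le
  rw [← Fintype.prod_sum (fun i (l : Fin (cubeL L i)) =>
    Real.exp (-(2 * (jj * a)) * (1 - Real.cos (2 * Real.pi * (l : ℕ) / L))))]
  rw [Fin.prod_univ_three]
  simp only [cubeL]
  push_cast
  rw [← mul_pow, ← pow_three']
  refine pow_le_pow_left₀ (by positivity) ?_ 3
  rw [max_mul_of_nonneg _ _ hL0.le, zero_mul, sub_mul, div_mul_cancel₀ _ hL0.ne']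
  refine max_le (Finset.sum_nonneg fun l _ => (Real.exp_pos _).le) ?_
  have := axis_sum_ge N (mul_nonneg hjj ha)
  rw [← hL] at this
  linarith

/-- The Gaussian limit of one axis. -/
lemma tendsto_axisInt {c : ℝ} (hc : 0 < c) :
    Tendsto (fun β : ℝ => √β * axisInt (c * β)) atTop (𝓝 (√(Real.pi / c) / (2 * Real.pi))) := by
  have h1 : Tendsto (fun β : ℝ => ∫ v in (0 : ℝ)..√β * Real.pi, Real.exp (-c * v ^ 2)) atTop
      (𝓝 (√(Real.pi / c) / 2)) := by
    rw [← integral_gaussian_Ioi c]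
    exact MeasureTheory.intervalIntegral_tendsto_integral_Ioi 0
      (integrableOn_Ioi_exp_neg_mul_sq_iff.2 hc)
      (Real.tendsto_sqrt_atTop.atTop_mul_const Real.pi_pos)
  have h2 := h1.div_const Real.pi
  rw [div_div] at h2
  refine h2.congr' ?_
  filter_upwards [eventually_gt_atTop 0] with β hβ
  have hs : √β ≠ 0 := (Real.sqrt_pos.2 hβ).ne'
  rw [axisInt, mul_div_assoc']
  congr 1
  have h3 := intervalIntegral.smul_integral_comp_mul_left
    (a := (0 : ℝ)) (b := Real.pi) (fun v => Real.exp (-c * v ^ 2)) √β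
  rw [mul_zero, smul_eq_mul] at h3
  rw [← h3]
  congr 1
  refine intervalIntegral.integral_congr fun u _ => ?_
  simp only [mul_pow, Real.sq_sqrt hβ.le]
  ring_nf

end Vale.Agent.P361
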