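import Vale.Agent.P361.Defs

/-! # P361: algebra of one-site and two-site spin operators -/

namespace Vale.Agent.P361

open Matrix

variable {n : ℕ} {V : Type*} [Fintype V] [DecidableEq V]

section Site

variable {K : Type*} [CommRing K]

lemma atSite_apply (x : V) (A : Matrix (Fin (n + 1)) (Fin (n + 1)) K) (s t : Cfg n V) :
    atSite x A s t = if ∀ z, z ≠ x → s z = t z then A (s x) (t x) else 0 := rfl

lemma atSite_mul (x : V) (A B : Matrix (Fin (n + 1)) (Fin (n + 1)) K) :
    atSite x A * atSite x B = atSite x (A * B) := by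
  ext s u
  rw [Matrix.mul_apply, atSite_apply]
  by_cases h : ∀ z, z ≠ x → s z = u z
  · rw [if_pos h, Matrix.mul_apply]
    rw [← Finset.sum_subset (Finset.subset_univ
      (Finset.univ.image fun a => Function.update s x a))]
    · rw [Finset.sum_image (by
        intro a _ b _ hab
        simpa using congrFun hab x)]
      refine Finset.sum_congr rfl fun a _ => ?_
      rw [atSite_apply, atSite_apply, if_pos (fun z hz => by simp [hz]),
        if_pos (fun z hz => by simp [hz, h z hz])]
      simp
    · intro t _ ht
      rw [atSite_apply]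
      split_ifs with h1
      · exfalso
        apply ht
        simp only [Finset.mem_image, Finset.mem_univ, true_and]
        refine ⟨t x, funext fun z => ?_⟩
        by_cases hz : z = x
        · subst hz; simp
        · simp [hz, h1 z hz]
      · simp
  · rw [if_neg h]
    refine Finset.sum_eq_zero fun t _ => ?_
    rw [atSite_apply, atSite_apply]
    split_ifs with h1 h2
    · exact absurd (fun z hz => (h1 z hz).trans (h2 z hz)) h
    all_goals simp

lemma atSite_mul_other {x y : V} (hxy : x ≠ y) (A B : Matrix (Fin (n + 1)) (Fin (n + 1)) K)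
    (s u : Cfg n V) : (atSite x A * atSite y B) s u =
      if ∀ z, z ≠ x → z ≠ y → s z = u z then A (s x) (u x) * B (s y) (u y) else 0 := by
  rw [Matrix.mul_apply, Finset.sum_eq_single (Function.update s x (u x))]
  · rw [atSite_apply, atSite_apply, if_pos (fun z hz => by simp [hz])]
    have hiff : (∀ z, z ≠ y → Function.update s x (u x) z = u z) ↔
        ∀ z, z ≠ x → z ≠ y → s z = u z := by
      constructor
      · intro h z hzx hzy; simpa [hzx] using h z hzy
      · intro h z hzy
        by_cases hzx : z = x
        · subst hzx; simp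
        · simpa [hzx] using h z hzx hzy
    by_cases h : ∀ z, z ≠ x → z ≠ y → s z = u z
    · rw [if_pos h, if_pos (hiff.2 h)]
      simp [hxy.symm]
    · rw [if_neg h, if_neg (fun hh => h (hiff.1 hh)), mul_zero]
  · intro t _ ht
    rw [atSite_apply, atSite_apply]
    split_ifs with h1 h2
    · exfalso
      apply ht
      funext z
      by_cases hz : z = x
      · subst hz; simpa using h2 z hxy
      · simp [hz, h1 z hz]
    all_goals simp
  · simp

lemma atSite_comm {x y : V} (hxy : x ≠ y) (A B : Matrix (Fin (n + 1)) (Fin (n + 1)) K) :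
    atSite x A * atSite y B = atSite y B * atSite x A := by
  ext s u
  rw [atSite_mul_other hxy, atSite_mul_other hxy.symm]
  by_cases h : ∀ z, z ≠ x → z ≠ y → s z = u z
  · rw [if_pos h, if_pos (fun z a b => h z b a), mul_comm]
  · rw [if_neg h, if_neg (fun hh => h fun z a b => hh z b a)]

lemma atSite_transpose (x : V) (A : Matrix (Fin (n + 1)) (Fin (n + 1)) K) :
    (atSite x A)ᵀ = atSite x Aᵀ := by
  ext s t
  simp only [Matrix.transpose_apply, atSite_apply]
  exact if_congr ⟨fun h z hz => (h z hz).symm, fun h z hz => (h z hz).symm⟩ rfl rfl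

lemma atSite_add (x : V) (A B : Matrix (Fin (n + 1)) (Fin (n + 1)) K) :
    atSite x (A + B) = atSite x A + atSite x B := by
  ext s t; simp only [Matrix.add_apply, atSite_apply]; split_ifs <;> simp

lemma atSite_sub (x : V) (A B : Matrix (Fin (n + 1)) (Fin (n + 1)) K) :
    atSite x (A - B) = atSite x A - atSite x B := by
  ext s t; simp only [Matrix.sub_apply, atSite_apply]; split_ifs <;> simp

lemma atSite_smul (x : V) (c : K) (A : Matrix (Fin (n + 1)) (Fin (n + 1)) K) :
    atSite x (c • A) = c • atSite x A := by
  ext s t; simp only [Matrix.smul_apply, atSite_apply]; split_ifs <;> simp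

lemma atSite_neg (x : V) (A : Matrix (Fin (n + 1)) (Fin (n + 1)) K) :
    atSite x (-A) = -atSite x A := by
  ext s t; simp only [Matrix.neg_apply, atSite_apply]; split_ifs <;> simp

lemma atSite_diagonal (x : V) (d : Fin (n + 1) → K) :
    atSite x (Matrix.diagonal d) = Matrix.diagonal (fun s : Cfg n V => d (s x)) := by
  ext s t
  rw [atSite_apply]
  by_cases h : s = t
  · subst h; simp
  · rw [Matrix.diagonal_apply_ne _ h]
    split_ifs with h1
    · refine Matrix.diagonal_apply_ne _ fun hx => h (funext fun z => ?_)
      by_cases hz : z = x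
      · exact hz ▸ hx
      · exact h1 z hz
    · rfl

end Site

lemma raise_mul_transpose (n : ℕ) : raise n * (raise n)ᵀ =
    Matrix.diagonal fun i : Fin (n + 1) => ((i : ℝ) + 1) * ((n : ℝ) - i) := by
  ext i k
  rw [Matrix.mul_apply]
  by_cases hik : i = k
  · subst hik
    rw [Matrix.diagonal_apply_eq]
    by_cases hi : (i : ℕ) + 1 < n + 1
    · rw [Finset.sum_eq_single ⟨(i : ℕ) + 1, hi⟩]
      · simp only [raise, Matrix.transpose_apply, Matrix.of_apply, if_true]
        rw [Real.mul_self_sqrt]
        · push_cast; ring
        · have : ((i : ℕ) : ℝ) + 1 ≤ n := by exact_mod_cast Nat.lt_succ_iff.1 hi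
          push_cast; nlinarith
      · intro j _ hj
        have : (j : ℕ) ≠ i + 1 := fun h => hj (Fin.ext h)
        simp [raise, this]
      · simp
    · rw [Finset.sum_eq_zero]
      · have : (i : ℕ) = n := by omega
        rw [this]; ring
      · intro j _
        have : (j : ℕ) ≠ i + 1 := by omega
        simp [raise, this]
  · rw [Matrix.diagonal_apply_ne _ hik]
    refine Finset.sum_eq_zero fun j _ => ?_
    simp only [raise, Matrix.transpose_apply, Matrix.of_apply]
    split_ifs with h1 h2
    · exact absurd (Fin.ext (by omega)) hik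
    all_goals simp

lemma transpose_mul_raise (n : ℕ) : (raise n)ᵀ * raise n =
    Matrix.diagonal fun i : Fin (n + 1) => (i : ℝ) * ((n : ℝ) + 1 - i) := by
  ext i k
  rw [Matrix.mul_apply]
  by_cases hik : i = k
  · subst hik
    rw [Matrix.diagonal_apply_eq]
    by_cases hi : 0 < (i : ℕ)
    · rw [Finset.sum_eq_single ⟨(i : ℕ) - 1, by omega⟩]
      · have h1 : (i : ℕ) = (i : ℕ) - 1 + 1 := by omega
        simp only [raise, Matrix.transpose_apply, Matrix.of_apply, if_pos h1]
        rw [Real.mul_self_sqrt]
        have : ((i : ℕ) : ℝ) ≤ n := by exact_mod_cast Nat.lt_succ_iff.1 i.2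
        nlinarith [Nat.cast_nonneg (α := ℝ) (i : ℕ)]
      · intro j _ hj
        have : (i : ℕ) ≠ j + 1 := fun h => hj (Fin.ext (by simp; omega))
        simp [raise, this]
      · simp
    · rw [Finset.sum_eq_zero]
      · have : (i : ℕ) = 0 := by omega
        rw [this]; simp
      · intro j _
        have : (i : ℕ) ≠ j + 1 := by omega
        simp [raise, this]
  · rw [Matrix.diagonal_apply_ne _ hik]
    refine Finset.sum_eq_zero fun j _ => ?_
    simp only [raise, Matrix.transpose_apply, Matrix.of_apply]
    split_ifs with h1 h2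
    · exact absurd (Fin.ext (by omega)) hik
    all_goals simp

lemma raise_comm (n : ℕ) :
    raise n * (raise n)ᵀ - (raise n)ᵀ * raise n = (2 : ℝ) • weightOp n := by
  rw [raise_mul_transpose, transpose_mul_raise, Matrix.diagonal_sub, weightOp,
    ← Matrix.diagonal_smul]
  congr 1; funext i; simp [weight]; ring

lemma weight_comm (n : ℕ) : weightOp n * raise n - raise n * weightOp n = raise n := by
  ext i j
  simp only [weightOp, Matrix.sub_apply, Matrix.diagonal_mul, Matrix.mul_diagonal]
  simp only [raise, Matrix.of_apply]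
  split_ifs with h
  · simp [weight, h]; ring
  · simp

lemma weight_comm_transpose (n : ℕ) :
    weightOp n * (raise n)ᵀ - (raise n)ᵀ * weightOp n = -(raise n)ᵀ := by
  conv_rhs => rw [← weight_comm n]
  simp [Matrix.transpose_sub, weightOp, Matrix.diagonal_transpose]

section Ops

variable (n)

/-- `S⁺` at a site. -/
noncomputable def up (x : V) : Matrix (Cfg n V) (Cfg n V) ℝ := atSite x (raise n)

/-- `S⁻` at a site. -/
noncomputable def dn (x : V) : Matrix (Cfg n V) (Cfg n V) ℝ := atSite x (raise n)ᵀ

/-- `S³` at a site. -/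
noncomputable def zc (x : V) : Matrix (Cfg n V) (Cfg n V) ℝ := atSite x (weightOp n)

/-- Real form of `S_x · S_y`. -/
noncomputable def dotR (x y : V) : Matrix (Cfg n V) (Cfg n V) ℝ :=
  zc n x * zc n y + (1 / 2 : ℝ) • (up n x * dn n y + dn n x * up n y)

lemma up_transpose (x : V) : (up n x)ᵀ = dn n x := atSite_transpose x _

lemma dn_transpose (x : V) : (dn n x)ᵀ = up n x := by
  rw [dn, atSite_transpose, Matrix.transpose_transpose]; rfl

lemma zc_eq (x : V) : zc n x = Matrix.diagonal (fun s : Cfg n V => weight n (s x)) :=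
  atSite_diagonal x _

lemma up_dn_self (x : V) : up n x * dn n x - dn n x * up n x = (2 : ℝ) • zc n x := by
  rw [up, dn, zc, atSite_mul, atSite_mul, ← atSite_sub, raise_comm, atSite_smul]

lemma zc_up_self (x : V) : zc n x * up n x - up n x * zc n x = up n x := by
  rw [up, zc, atSite_mul, atSite_mul, ← atSite_sub, weight_comm]

lemma zc_dn_self (x : V) : zc n x * dn n x - dn n x * zc n x = -dn n x := by
  rw [dn, zc, atSite_mul, atSite_mul, ← atSite_sub, weight_comm_transpose, atSite_neg]

lemma dotR_isSymm {x y : V} (h : x ≠ y) : (dotR n x y)ᵀ = dotR n x y := by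
  simp only [dotR, Matrix.transpose_add, Matrix.transpose_smul, Matrix.transpose_mul,
    up_transpose, dn_transpose]
  have e1 : (zc n y)ᵀ * (zc n x)ᵀ = zc n x * zc n y := by
    simp only [zc_eq, Matrix.diagonal_transpose, Matrix.diagonal_mul_diagonal, mul_comm]
  have e2 : up n y * dn n x = dn n x * up n y := atSite_comm h.symm _ _
  have e3 : dn n y * up n x = up n x * dn n y := atSite_comm h.symm _ _
  rw [e1, e2, e3, add_comm (dn n x * up n y)]

end Ops

end Vale.Agent.P361
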