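import Vale.Agent.P361.Bridge

/-! # P361: existence of the thermodynamic limit of the pressure -/

namespace Vale.Agent.P361

open Matrix Filter Topology

variable {n : ℕ} {C V W : Type*} [Fintype C] [DecidableEq C] [Fintype V] [DecidableEq V]
  [Fintype W] [DecidableEq W]

/-- The configuration of each copy. -/
def proj (ι : C × V ≃ W) (s : Cfg n W) (c : C) : Cfg n V := fun v => s (ι (c, v))

/-- Product vectors. -/
noncomputable def pvec (ι : C × V ≃ W) (g : C → Cfg n V → ℝ) : Cfg n W → ℝ :=
  fun s => ∏ c, g c (proj ι s c)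

/-- `M` acts on copy `c` as `M'`. -/
def Lift (ι : C × V ≃ W) (c : C) (M' : Matrix (Cfg n V) (Cfg n V) ℝ)
    (M : Matrix (Cfg n W) (Cfg n W) ℝ) : Prop :=
  ∀ g, M *ᵥ pvec ι g = pvec ι (Function.update g c (M' *ᵥ g c))

lemma pvec_update (ι : C × V ≃ W) (g : C → Cfg n V → ℝ) (c : C) (f : Cfg n V → ℝ)
    (s : Cfg n W) : pvec ι (Function.update g c f) s =
      f (proj ι s c) * ∏ c' ∈ Finset.univ.erase c, g c' (proj ι s c') := by
  rw [pvec, ← Finset.mul_prod_erase Finset.univ _ (Finset.mem_univ c), Function.update_self]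
  congr 1
  refine Finset.prod_congr rfl fun c' hc' => ?_
  rw [Function.update_of_ne (Finset.ne_of_mem_erase hc')]

lemma atSite_mulVec (x : V) (A : Matrix (Fin (n + 1)) (Fin (n + 1)) ℝ) (f : Cfg n V → ℝ)
    (s : Cfg n V) : (atSite x A *ᵥ f) s = ∑ a, A (s x) a * f (Function.update s x a) := by
  rw [mulVec, dotProduct, ← Finset.sum_subset (Finset.subset_univ
    (Finset.univ.image fun a => Function.update s x a))]
  · rw [Finset.sum_image (by
      intro a _ b _ hab
      simpa using congrFun hab x)]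
    refine Finset.sum_congr rfl fun a _ => ?_
    rw [atSite_apply, if_pos (fun z hz => by simp [hz])]
    simp
  · intro t _ ht
    rw [atSite_apply, if_neg, zero_mul]
    intro h
    apply ht
    simp only [Finset.mem_image, Finset.mem_univ, true_and]
    refine ⟨t x, funext fun z => ?_⟩
    by_cases hz : z = x
    · subst hz; simp
    · simp [hz, h z hz]

lemma lift_atSite (ι : C × V ≃ W) (c : C) (v : V) (A : Matrix (Fin (n + 1)) (Fin (n + 1)) ℝ) :
    Lift ι c (atSite v A) (atSite (ι (c, v)) A) := by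
  intro g
  funext s
  rw [atSite_mulVec, pvec_update, atSite_mulVec, Finset.sum_mul]
  refine Finset.sum_congr rfl fun a _ => ?_
  rw [mul_assoc]
  congr 1
  rw [pvec, ← Finset.mul_prod_erase Finset.univ _ (Finset.mem_univ c)]
  congr 1
  · congr 1
    funext w
    by_cases hw : w = v
    · subst hw; simp [proj]
    · have : ι (c, w) ≠ ι (c, v) := fun h => hw (by simpa using ι.injective h)
      simp [proj, hw, this]
  · refine Finset.prod_congr rfl fun c' hc' => ?_
    congr 1
    funext w
    have : ι (c', w) ≠ ι (c, v) := fun h =>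
      Finset.ne_of_mem_erase hc' (congrArg Prod.fst (ι.injective h))
    simp [proj, this]

variable {ι : C × V ≃ W} {c : C} {M' N' : Matrix (Cfg n V) (Cfg n V) ℝ}
  {M N : Matrix (Cfg n W) (Cfg n W) ℝ}

lemma Lift.mul (hM : Lift ι c M' M) (hN : Lift ι c N' N) : Lift ι c (M' * N') (M * N) := by
  intro g
  rw [← mulVec_mulVec, hN, hM, Function.update_self, Function.update_idem, mulVec_mulVec]

lemma Lift.add (hM : Lift ι c M' M) (hN : Lift ι c N' N) : Lift ι c (M' + N') (M + N) := by
  intro g
  funext s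
  rw [add_mulVec, Pi.add_apply, hM, hN, pvec_update, pvec_update, pvec_update, add_mulVec,
    Pi.add_apply, add_mul]

lemma Lift.smul (hM : Lift ι c M' M) (a : ℝ) : Lift ι c (a • M') (a • M) := by
  intro g
  funext s
  rw [smul_mulVec, Pi.smul_apply, hM, pvec_update, pvec_update, smul_mulVec, Pi.smul_apply]
  simp [mul_assoc]

lemma Lift.zero : Lift (n := n) ι c 0 0 := by
  intro g
  funext s
  simp [pvec_update]

lemma Lift.sum {α : Type*} (t : Finset α) {X' : α → Matrix (Cfg n V) (Cfg n V) ℝ}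
    {X : α → Matrix (Cfg n W) (Cfg n W) ℝ} (h : ∀ a ∈ t, Lift ι c (X' a) (X a)) :
    Lift ι c (∑ a ∈ t, X' a) (∑ a ∈ t, X a) := by
  classical
  induction t using Finset.induction with
  | empty => simpa using Lift.zero
  | insert a t ha ih =>
    rw [Finset.sum_insert ha, Finset.sum_insert ha]
    exact (h a (Finset.mem_insert_self a t)).add
      (ih fun b hb => h b (Finset.mem_insert_of_mem hb))

lemma lift_dotR (ι : C × V ≃ W) (c : C) (x y : V) :
    Lift ι c (dotR n x y) (dotR n (ι (c, x)) (ι (c, y))) :=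
  ((lift_atSite ι c x _).mul (lift_atSite ι c y _)).add
    ((((lift_atSite ι c x _).mul (lift_atSite ι c y _)).add
      ((lift_atSite ι c x _).mul (lift_atSite ι c y _))).smul _)

/-- The copies of a bond set. -/
def copies (ι : C × V ≃ W) (B : Finset (V × V)) : Finset (W × W) :=
  (Finset.univ ×ˢ B).image fun p => (ι (p.1, p.2.1), ι (p.1, p.2.2))

lemma copies_injective (ι : C × V ≃ W) :
    Function.Injective fun p : C × V × V => (ι (p.1, p.2.1), ι (p.1, p.2.2)) := by
  rintro ⟨c, x, y⟩ ⟨c', x', y'⟩ h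
  simp only [Prod.mk.injEq, EmbeddingLike.apply_eq_iff_eq] at h
  obtain ⟨⟨rfl, rfl⟩, -, rfl⟩ := h
  rfl

lemma card_copies (ι : C × V ≃ W) (B : Finset (V × V)) :
    (copies ι B).card = Fintype.card C * B.card := by
  rw [copies, Finset.card_image_of_injective _ (copies_injective ι), Finset.card_product,
    Finset.card_univ]

lemma ham_copies (ι : C × V ≃ W) (B : Finset (V × V)) (h : ℝ) :
    ham n (copies ι B) h = ∑ c, ((-1 : ℝ) • ∑ e ∈ B, dotR n (ι (c, e.1)) (ι (c, e.2))
      + (-h) • ∑ v, zc n (ι (c, v))) := by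
  rw [ham, copies, Finset.sum_image (copies_injective ι).injOn, Finset.sum_product,
    ← Equiv.sum_comp ι (fun x => zc n x), Fintype.sum_prod_type, Finset.smul_sum,
    Finset.sum_add_distrib]
  simp only [neg_smul, one_smul, Finset.sum_neg_distrib]
  rw [← sub_eq_add_neg]

lemma lift_ham (ι : C × V ≃ W) (c : C) (B : Finset (V × V)) (h : ℝ) :
    Lift ι c (ham n B h) ((-1 : ℝ) • ∑ e ∈ B, dotR n (ι (c, e.1)) (ι (c, e.2))
      + (-h) • ∑ v, zc n (ι (c, v))) := by
  rw [show ham n B h = (-1 : ℝ) • ∑ e ∈ B, dotR n e.1 e.2 + (-h) • ∑ v, zc n v by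
    rw [ham, neg_smul, neg_smul, one_smul, sub_eq_add_neg]]
  refine Lift.add (Lift.smul ?_ _) (Lift.smul ?_ _)
  · exact Lift.sum B fun e _ => lift_dotR ι c e.1 e.2
  · exact Lift.sum Finset.univ fun v _ => lift_atSite ι c v (weightOp n)

/-- Disjoint copies multiply the partition function. -/
lemma part_copies (ι : C × V ≃ W) (B : Finset (V × V)) (β h : ℝ) :
    part β (ham_isHermitian n (copies ι B) h)
      = part β (ham_isHermitian n B h) ^ Fintype.card C := by
  set hK := ham_isHermitian n B h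
  let e : Cfg n W ≃ (C → Cfg n V) :=
    ⟨proj ι, fun f w => f (ι.symm w).1 (ι.symm w).2,
      fun s => funext fun w => by simp [proj],
      fun f => funext fun c => funext fun v => by simp [proj]⟩
  let Φ : Matrix (C → Cfg n V) (Cfg n W) ℝ :=
    Matrix.of fun f => pvec ι fun c => evec hK (f c)
  have hΦ : IsONB Φ := by
    constructor
    · ext f f'
      rw [Matrix.mul_apply]
      simp only [Φ, Matrix.of_apply, Matrix.transpose_apply, pvec, ← Finset.prod_mul_distrib]
      rw [← Equiv.sum_comp e.symm, Matrix.one_apply]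
      have hp : ∀ (x : C → Cfg n V) c, proj ι (e.symm x) c = x c := fun x c => by
        funext v; simp [e, proj]
      simp only [hp]
      rw [← Fintype.prod_sum (fun c u => evec hK (f c) u * evec hK (f' c) u)]
      have h1 : ∀ c, ∑ u, evec hK (f c) u * evec hK (f' c) u
          = if f c = f' c then 1 else 0 := fun c => by
        have h2 := congrFun (congrFun (evec_isONB hK).1 (f c)) (f' c)
        rw [Matrix.mul_apply, Matrix.one_apply] at h2
        simpa [Matrix.transpose_apply] using h2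
      simp only [h1, Fintype.prod_boole, funext_iff]
    · ext s t
      rw [Matrix.mul_apply]
      simp only [Φ, Matrix.of_apply, Matrix.transpose_apply, pvec, ← Finset.prod_mul_distrib]
      rw [← Fintype.prod_sum (fun c i => evec hK i (proj ι s c) * evec hK i (proj ι t c)),
        Matrix.one_apply]
      have h1 : ∀ c, ∑ i, evec hK i (proj ι s c) * evec hK i (proj ι t c)
          = if proj ι s c = proj ι t c then 1 else 0 := fun c => by
        have h2 := congrFun (congrFun (evec_isONB hK).2 (proj ι s c)) (proj ι t c)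
        rw [Matrix.mul_apply, Matrix.one_apply] at h2
        simpa [Matrix.transpose_apply] using h2
      simp only [h1, Fintype.prod_boole]
      refine if_congr ?_ rfl rfl
      constructor
      · exact fun h2 => e.injective (funext h2)
      · rintro rfl c; rfl
  have hlift := fun c => lift_ham (n := n) ι c B h
  have heig : ∀ f, ham n (copies ι B) h *ᵥ Φ f = (∑ c, hK.eigenvalues (f c)) • Φ f := by
    intro f
    rw [ham_copies, sum_mulVec, Finset.sum_smul]
    refine Finset.sum_congr rfl fun c _ => ?_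
    funext s
    change (_ *ᵥ pvec ι (fun c => evec hK (f c))) s = _ * pvec ι (fun c => evec hK (f c)) s
    rw [hlift c, pvec_update, evec_eigen, Pi.smul_apply, smul_eq_mul, mul_assoc, pvec,
      ← Finset.mul_prod_erase Finset.univ _ (Finset.mem_univ c)]
  rw [part_eq _ hΦ heig, part, ← Finset.card_univ, ← Finset.prod_const, Fintype.prod_sum]
  refine Finset.sum_congr rfl fun f _ => ?_
  rw [Finset.mul_sum, Real.exp_sum]

lemma logP_copies (ι : C × V ≃ W) (B : Finset (V × V)) (β h : ℝ) :
    logP n (copies ι B) β h = Fintype.card C * logP n B β h := by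
  rw [logP, part_copies, Real.log_pow, logP]

lemma abs_logP_sub_le {B B' : Finset (V × V)} (hsub : B ⊆ B')
    (hB : ∀ e ∈ B', e.1 ≠ e.2) {β : ℝ} (hβ : 0 ≤ β) (h : ℝ) :
    |logP n B' β h - logP n B β h| ≤ β * (((B'.card : ℝ) - B.card) * (2 * (n : ℝ) ^ 2)) := by
  refine abs_log_part_sub_le hβ _ _ fun v => ?_
  rw [show ham n B' h - ham n B h = -∑ e ∈ B' \ B, dotR n e.1 e.2 by
    simp only [ham]; rw [← Finset.sum_sdiff hsub]; abel]
  rw [← neg_one_smul ℝ (∑ e ∈ B' \ B, _), qf_smul, qf_sum, neg_one_mul, abs_neg]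
  refine (Finset.abs_sum_le_sum_abs _ _).trans ?_
  refine (Finset.sum_le_sum fun e he =>
    abs_qf_dotR_le (hB e (Finset.mem_sdiff.1 he).1) v).trans (le_of_eq ?_)
  rw [Finset.sum_const, nsmul_eq_mul, Finset.card_sdiff_of_subset hsub,
    Nat.cast_sub (Finset.card_le_card hsub)]
  ring

/-! ### Cubes -/

/-- The cube of side `L`. -/
abbrev cubeL (L : ℕ) : Fin 3 → ℕ := fun _ => L

/-- Bonds along axis `i`. -/
def axisBonds (L : ℕ) (i : Fin 3) : Finset (Site (cubeL L) × Site (cubeL L)) :=
  Finset.univ.filter fun e => (e.2 i : ℕ) = e.1 i + 1 ∧ ∀ j, j ≠ i → e.1 j = e.2 j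

lemma bonds_eq (L : ℕ) : bonds (cubeL L) = Finset.univ.biUnion (axisBonds L) := by
  ext e; simp [bonds, axisBonds]

lemma axisBonds_disjoint (L : ℕ) :
    Set.PairwiseDisjoint (↑(Finset.univ : Finset (Fin 3))) (axisBonds L) := by
  intro i _ j _ hij
  rw [Function.onFun, Finset.disjoint_left]
  intro e he he'
  simp only [axisBonds, Finset.mem_filter, Finset.mem_univ, true_and] at he he'
  have := he'.2 i hij
  rw [← this] at he
  omega

lemma bonds_ne {L : ℕ} {e : Site (cubeL L) × Site (cubeL L)} (he : e ∈ bonds (cubeL L)) :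
    e.1 ≠ e.2 := by
  simp only [bonds, Finset.mem_filter, Finset.mem_univ, true_and] at he
  obtain ⟨i, h1, -⟩ := he
  intro h
  rw [← h] at h1
  omega

lemma axisBonds_injOn (L : ℕ) (i : Fin 3) :
    Set.InjOn Prod.fst (axisBonds L i : Set (Site (cubeL L) × Site (cubeL L))) := by
  rintro ⟨x, y⟩ hx ⟨x', y'⟩ hx' h
  simp only [axisBonds, Finset.coe_filter, Set.mem_setOf_eq, Finset.mem_univ, true_and]
    at hx hx' h
  subst h
  refine Prod.ext rfl (funext fun j => ?_)
  by_cases hj : j = i
  · subst hj; exact Fin.ext (by simp only at hx hx' ⊢; omega)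
  · exact (hx.2 j hj).symm.trans (hx'.2 j hj)

lemma card_axisBonds_le (L : ℕ) (i : Fin 3) :
    (axisBonds L i).card ≤ Fintype.card (Site (cubeL L)) :=
  Finset.card_le_card_of_injOn Prod.fst (by simp) (axisBonds_injOn L i)

lemma card_site (L : ℕ) : Fintype.card (Site (cubeL L)) = L ^ 3 := by simp

lemma le_card_axisBonds (L : ℕ) (i : Fin 3) : (L - 1) * L ^ 2 ≤ (axisBonds L i).card := by
  set T : Finset (Fin L) := Finset.univ.filter fun a => (a : ℕ) + 1 < L
  have hT : L - 1 ≤ T.card := by
    have h1 : (Finset.univ.filter fun a : Fin L => ¬ (a : ℕ) + 1 < L).card ≤ 1 := by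
      refine Finset.card_le_one.2 fun a ha b hb => ?_
      simp only [Finset.mem_filter, Finset.mem_univ, true_and] at ha hb
      exact Fin.ext (by omega)
    have h2 := Finset.card_filter_add_card_filter_not
      (s := (Finset.univ : Finset (Fin L))) (fun a : Fin L => (a : ℕ) + 1 < L)
    simp only [Finset.card_univ, Fintype.card_fin] at h2
    change L - 1 ≤ (Finset.univ.filter fun a : Fin L => (a : ℕ) + 1 < L).card
    omega
  set S : Finset (Site (cubeL L)) := Fintype.piFinset fun j => if j = i then T else Finset.univ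
  have hS : (L - 1) * L ^ 2 ≤ S.card := by
    rw [show S.card = ∏ j : Fin 3, (if j = i then T else Finset.univ).card from
      Fintype.card_piFinset _, ← Finset.mul_prod_erase Finset.univ _ (Finset.mem_univ i)]
    rw [if_pos rfl, Finset.prod_congr rfl (g := fun _ => L) fun j hj => by
      rw [if_neg (Finset.ne_of_mem_erase hj), Finset.card_univ, Fintype.card_fin]]
    rw [Finset.prod_const, Finset.card_erase_of_mem (Finset.mem_univ i), Finset.card_univ,
      Fintype.card_fin]
    exact Nat.mul_le_mul_right _ hT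
  refine hS.trans ((Finset.card_le_card (t := (axisBonds L i).image Prod.fst) ?_).trans
    Finset.card_image_le)
  intro x hx
  have hxi : (x i : ℕ) + 1 < L := by
    have := (Fintype.mem_piFinset.1 hx) i
    simpa [T] using this
  refine Finset.mem_image.2 ⟨(x, Function.update x i ⟨(x i : ℕ) + 1, hxi⟩), ?_, rfl⟩
  simp only [axisBonds, Finset.mem_filter, Finset.mem_univ, true_and]
  exact ⟨by simp, fun j hj => by simp [hj]⟩

lemma card_bonds_bounds (L : ℕ) :
    3 * ((L - 1) * L ^ 2) ≤ (bonds (cubeL L)).card ∧ (bonds (cubeL L)).card ≤ 3 * L ^ 3 := by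
  rw [bonds_eq, Finset.card_biUnion (axisBonds_disjoint L), Fin.sum_univ_three]
  constructor
  · linarith [le_card_axisBonds L 0, le_card_axisBonds L 1, le_card_axisBonds L 2]
  · have := card_axisBonds_le L 0
    have := card_axisBonds_le L 1
    have := card_axisBonds_le L 2
    have := card_site L
    omega

/-- A cube of side `k L` as `k ^ 3` copies of a cube of side `L`. -/
def cubeEquiv (k L : ℕ) : (Fin 3 → Fin k) × Site (cubeL L) ≃ Site (cubeL (k * L)) :=
  (Equiv.arrowProdEquivProdArrow (Fin 3) (fun _ => Fin k) (fun _ => Fin L)).symm.trans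
    (Equiv.piCongrRight fun _ => finProdFinEquiv)

lemma cubeEquiv_apply (k L : ℕ) (c : Fin 3 → Fin k) (v : Site (cubeL L)) (i : Fin 3) :
    (cubeEquiv k L (c, v) i : ℕ) = v i + L * c i := rfl

lemma copies_subset (k L : ℕ) :
    copies (cubeEquiv k L) (bonds (cubeL L)) ⊆ bonds (cubeL (k * L)) := by
  intro e he
  simp only [copies, Finset.mem_image, Finset.mem_product, Finset.mem_univ, true_and] at he
  obtain ⟨⟨c, e'⟩, he', rfl⟩ := he
  simp only [bonds, Finset.mem_filter, Finset.mem_univ, true_and] at he' ⊢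
  obtain ⟨i, h1, h2⟩ := he'
  refine ⟨i, ?_, fun j hj => Fin.ext ?_⟩
  · rw [cubeEquiv_apply, cubeEquiv_apply, h1]; ring
  · rw [cubeEquiv_apply, cubeEquiv_apply, h2 j hj]

/-- `log Z / L³`. -/
noncomputable def density (n : ℕ) (β h : ℝ) (L : ℕ) : ℝ :=
  logP n (bonds (cubeL L)) β h / (L : ℝ) ^ 3

lemma density_mul_sub_le {β : ℝ} (hβ : 0 ≤ β) (h : ℝ) {k L : ℕ} (hk : 0 < k) (hL : 0 < L) :
    |density n β h (k * L) - density n β h L| ≤ 6 * β * (n : ℝ) ^ 2 / L := by
  have h1 := abs_logP_sub_le (n := n) (copies_subset k L) (fun e he => bonds_ne he) hβ h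
  rw [logP_copies, card_copies, Fintype.card_fun, Fintype.card_fin, Fintype.card_fin] at h1
  push_cast at h1
  have hkL : (0 : ℝ) < ((k : ℝ) * L) ^ 3 := by positivity
  have hb := (card_bonds_bounds (k * L)).2
  have hs := (card_bonds_bounds L).1
  have hb' : ((bonds (cubeL (k * L))).card : ℝ) ≤ 3 * ((k : ℝ) * L) ^ 3 := by exact_mod_cast hb
  have hs' : 3 * (((L : ℝ) - 1) * (L : ℝ) ^ 2) ≤ ((bonds (cubeL L)).card : ℝ) := by
    have : ((L - 1 : ℕ) : ℝ) = (L : ℝ) - 1 := by rw [Nat.cast_sub hL]; simp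
    rw [← this]; exact_mod_cast hs
  have e : density n β h (k * L) - density n β h L
      = (logP n (bonds (cubeL (k * L))) β h
          - (k : ℝ) ^ 3 * logP n (bonds (cubeL L)) β h) / ((k : ℝ) * L) ^ 3 := by
    simp only [density]; push_cast; field_simp
  rw [e, abs_div, abs_of_pos hkL, div_le_iff₀ hkL]
  refine h1.trans ?_
  have h2 : ((bonds (cubeL (k * L))).card : ℝ) - (k : ℝ) ^ 3 * (bonds (cubeL L)).card
      ≤ 3 * (k : ℝ) ^ 3 * (L : ℝ) ^ 2 := by
    nlinarith [mul_le_mul_of_nonneg_left hs' (by positivity : (0 : ℝ) ≤ (k : ℝ) ^ 3)]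
  calc β * ((((bonds (cubeL (k * L))).card : ℝ) - (k : ℝ) ^ 3 * (bonds (cubeL L)).card)
        * (2 * (n : ℝ) ^ 2))
      ≤ β * ((3 * (k : ℝ) ^ 3 * (L : ℝ) ^ 2) * (2 * (n : ℝ) ^ 2)) := by gcongr
    _ = _ := by field_simp; ring

lemma pressure_cube_eq (n : ℕ) (β h : ℝ) (N : ℕ) :
    pressure n (cube N) β h = density n β h (2 * N + 1) / β := by
  rw [show cube N = cubeL (2 * N + 1) from rfl, pressure_eq, card_site, density, div_div]
  push_cast
  ring

/-- The thermodynamic limit of the pressure exists. -/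
theorem pressure_tendsto (n : ℕ) {β : ℝ} (hβ : 0 < β) (h : ℝ) :
    ∃ p, Tendsto (fun N => pressure n (cube N) β h) atTop (𝓝 p) := by
  refine cauchySeq_tendsto_of_complete (cauchySeq_of_le_tendsto_0
    (fun N : ℕ => 12 * (n : ℝ) ^ 2 / ((2 * N + 1 : ℕ) : ℝ)) ?_ ?_)
  · intro a b N ha hb
    rw [Real.dist_eq, pressure_cube_eq, pressure_cube_eq]
    set La := 2 * a + 1
    set Lb := 2 * b + 1
    set LN := 2 * N + 1
    have h1 := density_mul_sub_le (n := n) hβ.le h (k := Lb) (L := La) (by omega) (by omega)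
    have h2 := density_mul_sub_le (n := n) hβ.le h (k := La) (L := Lb) (by omega) (by omega)
    rw [mul_comm La Lb] at h2
    have hA : 6 * β * (n : ℝ) ^ 2 / La ≤ 6 * β * (n : ℝ) ^ 2 / LN := by
      gcongr; exact_mod_cast (by omega : LN ≤ La)
    have hB : 6 * β * (n : ℝ) ^ 2 / Lb ≤ 6 * β * (n : ℝ) ^ 2 / LN := by
      gcongr; exact_mod_cast (by omega : LN ≤ Lb)
    have h3 : |density n β h La - density n β h Lb| ≤ 12 * (n : ℝ) ^ 2 / LN * β := by
      rw [abs_le] at h1 h2 ⊢
      have : 12 * (n : ℝ) ^ 2 / LN * β = 2 * (6 * β * (n : ℝ) ^ 2 / LN) := by ring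
      constructor <;> linarith
    rwa [← sub_div, abs_div, abs_of_pos hβ, div_le_iff₀ hβ]
  · refine tendsto_const_nhds.div_atTop (tendsto_natCast_atTop_atTop.comp ?_)
    exact tendsto_atTop_mono (fun N => by simp only [id]; omega) tendsto_id

end Vale.Agent.P361
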